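import Vale.Agent.P042.H333.Vavg

set_option autoImplicit false

/-!
Block BAD (atypical thinnings) of Theorem S2.
-/

namespace Vale.Agent.P042.TT

open Polynomial Finset Vale.Agent.P042.SS

/-- Chernoff bound for a random subset -/
theorem chernoff_thin {κ : Type*} [DecidableEq κ] (S : Finset κ) (μ l X Y : ℝ) (ℓ : κ → ℝ)
    (hμ0 : 0 ≤ μ) (hμ1 : μ ≤ 1) (hl : 0 ≤ l) (hℓ0 : ∀ i ∈ S, 0 ≤ ℓ i)
    (hℓ : ∀ i ∈ S, l * ℓ i ≤ 1) (hX : ∑ i ∈ S, ℓ i ≤ X) :
    ∑ V ∈ (S.powerset).filter (fun V => Y < ∑ i ∈ V, ℓ i), wtR (fun _ => μ) S V ≤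
      Real.exp (2 * μ * l * X - l * Y) := by
  have h0 : ∀ V ∈ S.powerset, 0 ≤ wtR (fun _ => μ) S V := fun V hV =>
    wtR_nonneg _ S V (Finset.mem_powerset.1 hV) (fun _ _ => hμ0) (fun _ _ => hμ1)
  calc ∑ V ∈ (S.powerset).filter (fun V => Y < ∑ i ∈ V, ℓ i), wtR (fun _ => μ) S V
      ≤ ∑ V ∈ (S.powerset).filter (fun V => Y < ∑ i ∈ V, ℓ i),
          wtR (fun _ => μ) S V * Real.exp (l * (∑ i ∈ V, ℓ i - Y)) := by
        refine Finset.sum_le_sum fun V hV => ?_
        rw [Finset.mem_filter] at hV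
        refine le_mul_of_one_le_right (h0 V hV.1) ?_
        exact Real.one_le_exp (mul_nonneg hl (by linarith [hV.2]))
    _ ≤ ∑ V ∈ S.powerset, wtR (fun _ => μ) S V * Real.exp (l * (∑ i ∈ V, ℓ i - Y)) := by
        refine Finset.sum_le_sum_of_subset_of_nonneg (Finset.filter_subset _ _) ?_
        intro V hV _
        exact mul_nonneg (h0 V hV) (Real.exp_pos _).le
    _ = Real.exp (-(l * Y)) * ∏ i ∈ S, (μ * Real.exp (l * ℓ i) + (1 - μ)) := by
        rw [Finset.prod_add, Finset.mul_sum]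
        refine Finset.sum_congr rfl fun V hV => ?_
        unfold wtR
        rw [Finset.prod_mul_distrib, ← Real.exp_sum, ← Finset.mul_sum, mul_sub, sub_eq_add_neg,
          Real.exp_add]
        ring
    _ ≤ Real.exp (-(l * Y)) * ∏ i ∈ S, Real.exp (2 * μ * (l * ℓ i)) := by
        refine mul_le_mul_of_nonneg_left ?_ (Real.exp_pos _).le
        refine Finset.prod_le_prod ?_ ?_
        · intro i _
          have := Real.exp_pos (l * ℓ i)
          nlinarith
        · intro i hi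
          have hx0 : 0 ≤ l * ℓ i := mul_nonneg hl (hℓ0 i hi)
          have hx1 : |l * ℓ i| ≤ 1 := by rw [abs_of_nonneg hx0]; exact hℓ i hi
          have h1 := Real.abs_exp_sub_one_le hx1
          rw [abs_of_nonneg hx0] at h1
          have h2 := (abs_le.1 h1).2
          have h3 := Real.add_one_le_exp (2 * μ * (l * ℓ i))
          nlinarith
    _ = Real.exp (2 * μ * l * ∑ i ∈ S, ℓ i - l * Y) := by
        rw [← Real.exp_sum, ← Real.exp_add, ← Finset.mul_sum, ← Finset.mul_sum]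
        congr 1
        ring
    _ ≤ _ := by
        apply Real.exp_le_exp.2
        have : 0 ≤ 2 * μ * l := by positivity
        nlinarith [mul_le_mul_of_nonneg_left hX this]

theorem bad_eventually : ∀ᶠ P : ℝ in Filter.atTop,
    2.8 + 1.04 * Real.log P ≤ P ^ (0.005 : ℝ) := by
  have h1 : (fun P : ℝ => Real.log P) =o[Filter.atTop] (fun P : ℝ => P ^ (0.005 : ℝ)) :=
    isLittleO_log_rpow_atTop (by norm_num)
  have h2 := h1.bound (show (0 : ℝ) < 1 / 4 by norm_num)
  have h3 : Filter.Tendsto (fun P : ℝ => P ^ (0.005 : ℝ)) Filter.atTop Filter.atTop :=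
    tendsto_rpow_atTop (by norm_num)
  filter_upwards [h2, h3.eventually_ge_atTop 10, Filter.eventually_ge_atTop 1] with P h2 h3 h4
  rw [Real.norm_of_nonneg (Real.log_nonneg h4), Real.norm_of_nonneg (by positivity)] at h2
  linarith

theorem bad_holds : BADStmt := by
  obtain ⟨P1, hP1⟩ := Filter.eventually_atTop.1 bad_eventually
  refine ⟨max P1 3, fun P hP => ?_⟩
  have hP1' := hP1 P ((le_max_left _ _).trans hP)
  have hP3 : 3 ≤ P := (le_max_right _ _).trans hP
  have hPpos : 0 < P := by linarith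
  have hlog : 0 < Real.log P := Real.log_pos (by linarith)
  have hmem : ∀ p ∈ W2 P, (p : ℝ) ≤ P ^ (1.04 : ℝ) ∧ 1 ≤ p := by
    intro p hp
    unfold W2 Wp at hp
    rw [Finset.mem_filter, Finset.mem_Ioc] at hp
    exact ⟨(Nat.le_floor_iff (by positivity)).1 hp.1.2, hp.2.one_le⟩
  have hsum : ∑ p ∈ W2 P, Real.log p ≤ Real.log 4 * P ^ (1.04 : ℝ) := by
    calc ∑ p ∈ W2 P, Real.log p ≤ Chebyshev.theta (P ^ (1.04 : ℝ)) := by
          unfold Chebyshev.theta W2 Wp
          refine Finset.sum_le_sum_of_subset_of_nonneg ?_ ?_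
          · intro p hp
            rw [Finset.mem_filter, Finset.mem_Ioc] at hp ⊢
            exact ⟨⟨hp.2.pos, hp.1.2⟩, hp.2⟩
          · intro p hp _
            rw [Finset.mem_filter, Finset.mem_Ioc] at hp
            exact Real.log_nonneg (by exact_mod_cast hp.2.one_le)
      _ ≤ _ := Chebyshev.theta_le_log4_mul_x (by positivity)
  have hμ0 : 0 ≤ mu2 P := by unfold mu2; positivity
  have hμ1 : mu2 P ≤ 1 := by
    unfold mu2
    exact Real.rpow_le_one_of_one_le_of_nonpos (by linarith) (by norm_num)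
  have h := chernoff_thin (W2 P) (mu2 P) (1 / (1.04 * Real.log P)) (Real.log 4 * P ^ (1.04 : ℝ))
    (P ^ (0.995 : ℝ)) (fun p : ℕ => Real.log p) hμ0 hμ1 (by positivity)
    (fun p hp => Real.log_nonneg (by exact_mod_cast (hmem p hp).2))
    (fun p hp => by
      have h1 : Real.log p ≤ 1.04 * Real.log P := by
        rw [← Real.log_rpow hPpos]
        exact Real.log_le_log (by exact_mod_cast (hmem p hp).2) (hmem p hp).1
      rw [div_mul_eq_mul_div, one_mul, div_le_one (by positivity)]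
      exact h1) hsum
  refine h.trans (Real.exp_le_exp.2 ?_)
  have hlog4 : Real.log 4 ≤ 1.4 := by
    have : Real.log 4 = 2 * Real.log 2 := by
      rw [show (4 : ℝ) = 2 ^ 2 by norm_num, Real.log_pow]; norm_num
    rw [this]
    have := Real.log_two_lt_d9
    linarith
  have e1 : mu2 P * P ^ (1.04 : ℝ) = P ^ (0.99 : ℝ) := by
    unfold mu2
    rw [← Real.rpow_add hPpos]; norm_num
  have e2 : P ^ (0.995 : ℝ) = P ^ (0.005 : ℝ) * P ^ (0.99 : ℝ) := by
    rw [← Real.rpow_add hPpos]; norm_num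
  have e3 : 2 * mu2 P * (1 / (1.04 * Real.log P)) * (Real.log 4 * P ^ (1.04 : ℝ)) =
      2 * Real.log 4 * (mu2 P * P ^ (1.04 : ℝ)) * (1 / (1.04 * Real.log P)) := by ring
  rw [e3, e1, e2]
  have hz : 0 < P ^ (0.99 : ℝ) := by positivity
  have key : 2 * Real.log 4 * P ^ (0.99 : ℝ) + 1.04 * Real.log P * P ^ (0.99 : ℝ) ≤
      P ^ (0.005 : ℝ) * P ^ (0.99 : ℝ) := by
    have h5 : 2 * Real.log 4 + 1.04 * Real.log P ≤ P ^ (0.005 : ℝ) := by linarith
    have h6 := mul_le_mul_of_nonneg_right h5 hz.le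
    linarith
  have h7 : 0 < 1.04 * Real.log P := by positivity
  have h8 : 2 * Real.log 4 * P ^ (0.99 : ℝ) * (1 / (1.04 * Real.log P)) -
      1 / (1.04 * Real.log P) * (P ^ (0.005 : ℝ) * P ^ (0.99 : ℝ)) =
      (2 * Real.log 4 * P ^ (0.99 : ℝ) - P ^ (0.005 : ℝ) * P ^ (0.99 : ℝ)) /
        (1.04 * Real.log P) := by ring
  rw [h8, div_le_iff₀ h7]
  linarith

end Vale.Agent.P042.TT
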