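import Vale.Agent.P042.TT.Spec

set_option autoImplicit false

/-!
Block KB (norms of the kernel of one prime) of Theorem S2.
-/

namespace Vale.Agent.P042.TT

open Polynomial Finset Vale.Agent.P042.SS

/-! ### Fourier analysis mod `p` on `Fin p` -/

/-- orthogonality of the characters mod `D` -/
theorem echar_orth3 (D : ℕ) (hD : 1 ≤ D) (m : ℤ) :
    ∑ a ∈ range D, e ((m : ℝ) * ((a : ℝ) / D)) = if (D : ℤ) ∣ m then (D : ℂ) else 0 := by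
  have hD' : (D : ℝ) ≠ 0 := by positivity
  split_ifs with h
  · obtain ⟨c, rfl⟩ := h
    have h1 : ∀ a ∈ range D, e ((((D : ℤ) * c : ℤ) : ℝ) * ((a : ℝ) / D)) = 1 := by
      intro a _
      have h2 : (((D : ℤ) * c : ℤ) : ℝ) * ((a : ℝ) / D) = ((c * a : ℤ) : ℝ) := by
        push_cast; field_simp
      rw [h2, e_int]
    rw [Finset.sum_congr rfl h1]
    simp
  · have h1 : ∀ a ∈ range D, e ((m : ℝ) * ((a : ℝ) / D)) = e ((m : ℝ) / D) ^ a := by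
      intro a _
      rw [← e_nat_mul]
      congr 1
      ring
    rw [Finset.sum_congr rfl h1]
    have hne : e ((m : ℝ) / D) ≠ 1 := by
      intro h2
      rw [e_eq_one_iff] at h2
      obtain ⟨n, hn⟩ := h2
      apply h
      refine ⟨n, ?_⟩
      have : (m : ℝ) = D * n := by rw [← hn]; field_simp
      exact_mod_cast this
    have h3 := geom_sum_eq hne D
    rw [h3, ← e_nat_mul]
    have h4 : (D : ℝ) * ((m : ℝ) / D) = ((m : ℤ) : ℝ) := by field_simp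
    rw [h4, e_int, sub_self, zero_div]

/-- discrete Fourier transform on `Fin p` -/
noncomputable def hat (p : ℕ) (u : Fin p → ℂ) (b : ℕ) : ℂ :=
  ∑ x : Fin p, u x * e (-((b : ℝ) * ((x : ℕ) : ℝ) / (p : ℝ)))

theorem hat_parseval (p : ℕ) (hp : 1 ≤ p) (u : Fin p → ℂ) :
    ∑ b ∈ range p, ‖hat p u b‖ ^ 2 = p * ∑ x : Fin p, ‖u x‖ ^ 2 := by
  have key : ((∑ b ∈ range p, ‖hat p u b‖ ^ 2 : ℝ) : ℂ) =
      ((p * ∑ x : Fin p, ‖u x‖ ^ 2 : ℝ) : ℂ) := by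
    have h1 : ∀ b ∈ range p, ((‖hat p u b‖ ^ 2 : ℝ) : ℂ) =
        ∑ x : Fin p, ∑ y : Fin p, (u x * (starRingEnd ℂ) (u y)) *
          e (((((y : ℕ) : ℤ) - ((x : ℕ) : ℤ) : ℤ) : ℝ) * ((b : ℝ) / p)) := by
      intro b _
      have h2 : ((‖hat p u b‖ ^ 2 : ℝ) : ℂ) = hat p u b * (starRingEnd ℂ) (hat p u b) := by
        rw [Complex.mul_conj, Complex.normSq_eq_norm_sq]
      rw [h2]
      unfold hat
      rw [map_sum, Finset.sum_mul_sum]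
      refine Finset.sum_congr rfl fun x _ => Finset.sum_congr rfl fun y _ => ?_
      rw [map_mul, conj_e]
      have h3 : ((((y : ℕ) : ℤ) - ((x : ℕ) : ℤ) : ℤ) : ℝ) * ((b : ℝ) / p) =
          -((b : ℝ) * ((x : ℕ) : ℝ) / (p : ℝ)) + -(-((b : ℝ) * ((y : ℕ) : ℝ) / (p : ℝ))) := by
        push_cast; ring
      rw [h3, e_add]
      ring
    rw [Complex.ofReal_sum, Finset.sum_congr rfl h1, Finset.sum_comm]
    rw [Complex.ofReal_mul, Complex.ofReal_sum, Finset.mul_sum]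
    refine Finset.sum_congr rfl fun x _ => ?_
    rw [Finset.sum_comm]
    have h5 : ∀ y ∈ (univ : Finset (Fin p)), ∑ b ∈ range p, (u x * (starRingEnd ℂ) (u y)) *
          e (((((y : ℕ) : ℤ) - ((x : ℕ) : ℤ) : ℤ) : ℝ) * ((b : ℝ) / p)) =
          if y = x then (p : ℂ) * ((‖u x‖ ^ 2 : ℝ) : ℂ) else 0 := by
      intro y _
      rw [← Finset.mul_sum, echar_orth3 p hp]
      by_cases hxy : y = x
      · subst hxy
        simp only [sub_self, dvd_zero, if_true]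
        rw [Complex.mul_conj, Complex.normSq_eq_norm_sq]
        ring
      · rw [if_neg hxy, if_neg, mul_zero]
        intro hd
        apply hxy
        have h6 : ((y : ℕ) : ℤ) - ((x : ℕ) : ℤ) = 0 := by
          apply Int.eq_zero_of_abs_lt_dvd hd
          have := y.isLt
          have := x.isLt
          rw [abs_lt]
          constructor <;> omega
        apply Fin.ext
        omega
    rw [Finset.sum_congr rfl h5, Finset.sum_ite_eq' univ x, if_pos (mem_univ x)]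
    push_cast
    rfl
  exact_mod_cast key

/-- dual form -/
theorem dual_parseval (p : ℕ) (hp : 1 ≤ p) (c : ℕ → ℂ) :
    ∑ x : Fin p, ‖∑ b ∈ Ico 1 p, c b * e (-((b : ℝ) * ((x : ℕ) : ℝ) / (p : ℝ)))‖ ^ 2 =
      p * ∑ b ∈ Ico 1 p, ‖c b‖ ^ 2 := by
  have h := hat_parseval p hp (fun b : Fin p => if (b : ℕ) = 0 then 0 else c b)
  have h1 : ∀ x : ℕ, hat p (fun b : Fin p => if (b : ℕ) = 0 then 0 else c b) x =
      ∑ b ∈ Ico 1 p, c b * e (-((b : ℝ) * (x : ℝ) / (p : ℝ))) := by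
    intro x
    unfold hat
    rw [Fin.sum_univ_eq_sum_range (fun b : ℕ => (if b = 0 then 0 else c b) *
      e (-((x : ℝ) * (b : ℝ) / (p : ℝ)))) p, Finset.range_eq_Ico,
      Finset.sum_eq_sum_Ico_succ_bot (by omega)]
    simp only [if_true, zero_mul, zero_add]
    refine Finset.sum_congr rfl fun b hb => ?_
    rw [Finset.mem_Ico] at hb
    rw [if_neg (by omega), mul_comm (x : ℝ) (b : ℝ)]
  have h2 : ∑ x : Fin p, ‖∑ b ∈ Ico 1 p, c b * e (-((b : ℝ) * ((x : ℕ) : ℝ) / (p : ℝ)))‖ ^ 2 =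
      ∑ x ∈ range p, ‖hat p (fun b : Fin p => if (b : ℕ) = 0 then 0 else c b) x‖ ^ 2 := by
    rw [← Fin.sum_univ_eq_sum_range (fun x : ℕ =>
      ‖hat p (fun b : Fin p => if (b : ℕ) = 0 then 0 else c b) x‖ ^ 2) p]
    refine Finset.sum_congr rfl fun x _ => ?_
    rw [h1]
  rw [h2, h]
  congr 1
  rw [Fin.sum_univ_eq_sum_range (fun b : ℕ => ‖(if b = 0 then 0 else c b : ℂ)‖ ^ 2) p,
    Finset.range_eq_Ico, Finset.sum_eq_sum_Ico_succ_bot (by omega)]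
  simp only [if_true, norm_zero, ne_eq, OfNat.ofNat_ne_zero, not_false_eq_true, zero_pow,
    zero_add]
  refine Finset.sum_congr rfl fun b hb => ?_
  rw [Finset.mem_Ico] at hb
  rw [if_neg (by omega)]

/-! ### the abstract kernel -/

/-- kernel with coefficients `c b` -/
noncomputable def kk (p : ℕ) (m : ℝ) (c : ℕ → ℂ) (x y : Fin p) : ℝ :=
  (1 / m) * ∑ b ∈ Ico 1 p,
    (c b * e (-((b : ℝ) * (((x : ℕ) : ℝ) - ((y : ℕ) : ℝ)) / (p : ℝ)))).re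

theorem kk_term (p : ℕ) (c : ℂ) (b : ℕ) (x y : Fin p) (u v : ℝ) :
    u * (c * e (-((b : ℝ) * (((x : ℕ) : ℝ) - ((y : ℕ) : ℝ)) / (p : ℝ)))).re * v =
      (c * (((u : ℂ) * e (-((b : ℝ) * ((x : ℕ) : ℝ) / (p : ℝ)))) *
        (starRingEnd ℂ) ((v : ℂ) * e (-((b : ℝ) * ((y : ℕ) : ℝ) / (p : ℝ)))))).re := by
  rw [map_mul, conj_e, Complex.conj_ofReal]
  have h3 : -((b : ℝ) * (((x : ℕ) : ℝ) - ((y : ℕ) : ℝ)) / (p : ℝ)) =
      -((b : ℝ) * ((x : ℕ) : ℝ) / (p : ℝ)) + -(-((b : ℝ) * ((y : ℕ) : ℝ) / (p : ℝ))) := by ring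
  rw [h3, e_add]
  have h4 : c * ((u : ℂ) * e (-((b : ℝ) * ((x : ℕ) : ℝ) / (p : ℝ))) *
      ((v : ℂ) * e (-(-((b : ℝ) * ((y : ℕ) : ℝ) / (p : ℝ)))))) =
      ((u * v : ℝ) : ℂ) * (c * (e (-((b : ℝ) * ((x : ℕ) : ℝ) / (p : ℝ))) *
        e (-(-((b : ℝ) * ((y : ℕ) : ℝ) / (p : ℝ)))))) := by
    push_cast; ring
  rw [h4, Complex.re_ofReal_mul]
  ring

theorem kk_form (p : ℕ) (m : ℝ) (c : ℕ → ℂ) (φ ψ : Fin p → ℝ) :
    ∑ x : Fin p, ∑ y : Fin p, φ x * kk p m c x y * ψ y =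
      (1 / m) * (∑ b ∈ Ico 1 p, c b * (hat p (fun x => (φ x : ℂ)) b *
        (starRingEnd ℂ) (hat p (fun x => (ψ x : ℂ)) b))).re := by
  have h1 : ∀ x y : Fin p, φ x * kk p m c x y * ψ y =
      (1 / m) * ∑ b ∈ Ico 1 p, (c b * (((φ x : ℂ) * e (-((b : ℝ) * ((x : ℕ) : ℝ) / (p : ℝ)))) *
        (starRingEnd ℂ) ((ψ y : ℂ) * e (-((b : ℝ) * ((y : ℕ) : ℝ) / (p : ℝ)))))).re := by
    intro x y
    unfold kk
    have h2 : ∀ S : ℝ, φ x * ((1 / m) * S) * ψ y = (1 / m) * (φ x * S * ψ y) := fun S => by ring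
    rw [h2, Finset.mul_sum, Finset.sum_mul]
    congr 1
    exact Finset.sum_congr rfl fun b _ => kk_term p (c b) b x y (φ x) (ψ y)
  have h2 : ∑ x : Fin p, ∑ y : Fin p, φ x * kk p m c x y * ψ y =
      ∑ x : Fin p, ∑ y : Fin p, (1 / m) * ∑ b ∈ Ico 1 p,
        (c b * (((φ x : ℂ) * e (-((b : ℝ) * ((x : ℕ) : ℝ) / (p : ℝ)))) *
        (starRingEnd ℂ) ((ψ y : ℂ) * e (-((b : ℝ) * ((y : ℕ) : ℝ) / (p : ℝ)))))).re :=
    Finset.sum_congr rfl fun x _ => Finset.sum_congr rfl fun y _ => h1 x y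
  have h4 : (∑ b ∈ Ico 1 p, c b * (hat p (fun x => (φ x : ℂ)) b *
        (starRingEnd ℂ) (hat p (fun x => (ψ x : ℂ)) b))).re =
      ∑ b ∈ Ico 1 p, ∑ x : Fin p, ∑ y : Fin p,
        (c b * (((φ x : ℂ) * e (-((b : ℝ) * ((x : ℕ) : ℝ) / (p : ℝ)))) *
        (starRingEnd ℂ) ((ψ y : ℂ) * e (-((b : ℝ) * ((y : ℕ) : ℝ) / (p : ℝ)))))).re := by
    rw [Complex.re_sum]
    refine Finset.sum_congr rfl fun b _ => ?_
    unfold hat
    rw [map_sum, Finset.sum_mul_sum, Finset.mul_sum, Complex.re_sum]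
    refine Finset.sum_congr rfl fun x _ => ?_
    rw [Finset.mul_sum, Complex.re_sum]
  rw [h2, h4]
  simp_rw [← Finset.mul_sum]
  congr 1
  rw [Finset.sum_comm]
  rw [Finset.sum_comm (s := Ico 1 p)]
  rw [Finset.sum_comm]
  refine Finset.sum_congr rfl fun x _ => ?_
  rw [Finset.sum_comm]

theorem hat_zero (p : ℕ) (u : Fin p → ℂ) : hat p u 0 = ∑ x, u x := by
  unfold hat
  refine Finset.sum_congr rfl fun x _ => ?_
  simp [e_zero]

/-- `∑_{b ≠ 0} |π^(b)|²` -/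
theorem hat_energy (p : ℕ) (hp : 1 ≤ p) (π : Fin p → ℝ) (h1 : ∑ x, π x = 1) :
    ∑ b ∈ Ico 1 p, ‖hat p (fun x => (π x : ℂ)) b‖ ^ 2 = p * ∑ x, π x ^ 2 - 1 := by
  have h := hat_parseval p hp (fun x => (π x : ℂ))
  rw [Finset.range_eq_Ico, Finset.sum_eq_sum_Ico_succ_bot (by omega), hat_zero] at h
  have h2 : ‖∑ x : Fin p, (π x : ℂ)‖ ^ 2 = 1 := by
    rw [← Complex.ofReal_sum, h1]; simp
  have h3 : ∑ x : Fin p, ‖(π x : ℂ)‖ ^ 2 = ∑ x, π x ^ 2 := by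
    refine Finset.sum_congr rfl fun x _ => ?_
    rw [Complex.norm_real, Real.norm_eq_abs, sq_abs]
  rw [h2, h3] at h
  linarith

theorem hat_sum_le (p : ℕ) (hp : 1 ≤ p) (u : Fin p → ℝ) :
    ∑ b ∈ Ico 1 p, ‖hat p (fun x => (u x : ℂ)) b‖ ^ 2 ≤ p * ∑ x, u x ^ 2 := by
  have h := hat_parseval p hp (fun x => (u x : ℂ))
  have h3 : ∑ x : Fin p, ‖(u x : ℂ)‖ ^ 2 = ∑ x, u x ^ 2 := by
    refine Finset.sum_congr rfl fun x _ => ?_
    rw [Complex.norm_real, Real.norm_eq_abs, sq_abs]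
  rw [h3] at h
  rw [← h]
  refine Finset.sum_le_sum_of_subset_of_nonneg ?_ fun _ _ _ => by positivity
  intro b hb
  rw [Finset.mem_Ico] at hb
  exact Finset.mem_range.2 hb.2

theorem kk_bilin (p : ℕ) (hp : 1 ≤ p) (m γ : ℝ) (hm : 0 < m) (hγ : 0 ≤ γ) (c : ℕ → ℂ)
    (hc : ∀ b ∈ Ico 1 p, ‖c b‖ ≤ γ) (u v : Fin p → ℝ) (X Y : ℝ)
    (hX : ∑ b ∈ Ico 1 p, ‖hat p (fun x => (u x : ℂ)) b‖ ^ 2 ≤ X)
    (hY : ∑ b ∈ Ico 1 p, ‖hat p (fun x => (v x : ℂ)) b‖ ^ 2 ≤ Y) :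
    |∑ x : Fin p, ∑ y : Fin p, u x * kk p m c x y * v y| ≤ γ / m * (Real.sqrt X * Real.sqrt Y) := by
  rw [kk_form, abs_mul, abs_of_pos (by positivity : (0 : ℝ) < 1 / m)]
  have h1 : |(∑ b ∈ Ico 1 p, c b * (hat p (fun x => (u x : ℂ)) b *
        (starRingEnd ℂ) (hat p (fun x => (v x : ℂ)) b))).re| ≤
      γ * (Real.sqrt X * Real.sqrt Y) := by
    refine (Complex.abs_re_le_norm _).trans ?_
    refine (norm_sum_le _ _).trans ?_
    calc ∑ b ∈ Ico 1 p, ‖c b * (hat p (fun x => (u x : ℂ)) b *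
          (starRingEnd ℂ) (hat p (fun x => (v x : ℂ)) b))‖
        ≤ ∑ b ∈ Ico 1 p, γ * (‖hat p (fun x => (u x : ℂ)) b‖ *
            ‖hat p (fun x => (v x : ℂ)) b‖) := by
          refine Finset.sum_le_sum fun b hb => ?_
          rw [norm_mul, norm_mul, RCLike.norm_conj]
          exact mul_le_mul_of_nonneg_right (hc b hb) (by positivity)
      _ = γ * ∑ b ∈ Ico 1 p, ‖hat p (fun x => (u x : ℂ)) b‖ *
            ‖hat p (fun x => (v x : ℂ)) b‖ := by rw [Finset.mul_sum]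
      _ ≤ γ * (Real.sqrt (∑ b ∈ Ico 1 p, ‖hat p (fun x => (u x : ℂ)) b‖ ^ 2) *
            Real.sqrt (∑ b ∈ Ico 1 p, ‖hat p (fun x => (v x : ℂ)) b‖ ^ 2)) := by
          exact mul_le_mul_of_nonneg_left (Real.sum_mul_le_sqrt_mul_sqrt _ _ _) hγ
      _ ≤ _ := by
          refine mul_le_mul_of_nonneg_left ?_ hγ
          exact mul_le_mul (Real.sqrt_le_sqrt hX) (Real.sqrt_le_sqrt hY) (Real.sqrt_nonneg _)
            (Real.sqrt_nonneg _)
  calc 1 / m * |(∑ b ∈ Ico 1 p, c b * (hat p (fun x => (u x : ℂ)) b *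
        (starRingEnd ℂ) (hat p (fun x => (v x : ℂ)) b))).re|
      ≤ 1 / m * (γ * (Real.sqrt X * Real.sqrt Y)) := mul_le_mul_of_nonneg_left h1 (by positivity)
    _ = _ := by ring

theorem kk_row (p : ℕ) (m : ℝ) (c : ℕ → ℂ) (π : Fin p → ℝ) (x : Fin p) :
    ∑ y, π y * kk p m c x y = (1 / m) * (∑ b ∈ Ico 1 p,
      (c b * (starRingEnd ℂ) (hat p (fun y => (π y : ℂ)) b)) *
        e (-((b : ℝ) * ((x : ℕ) : ℝ) / (p : ℝ)))).re := by
  have h1 : ∀ y : Fin p, π y * kk p m c x y = (1 / m) * ∑ b ∈ Ico 1 p,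
      (c b * (((1 : ℝ) : ℂ) * e (-((b : ℝ) * ((x : ℕ) : ℝ) / (p : ℝ))) *
        (starRingEnd ℂ) ((π y : ℂ) * e (-((b : ℝ) * ((y : ℕ) : ℝ) / (p : ℝ)))))).re := by
    intro y
    unfold kk
    rw [mul_left_comm, Finset.mul_sum]
    congr 1
    refine Finset.sum_congr rfl fun b _ => ?_
    rw [← kk_term p (c b) b x y 1 (π y)]
    ring
  rw [Finset.sum_congr rfl fun y _ => h1 y, ← Finset.mul_sum, Finset.sum_comm]
  congr 1
  rw [Complex.re_sum]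
  refine Finset.sum_congr rfl fun b _ => ?_
  rw [← Complex.re_sum]
  congr 1
  rw [← Finset.mul_sum, ← Finset.mul_sum, ← map_sum]
  unfold hat
  rw [Complex.ofReal_one]
  ring

theorem kk_col (p : ℕ) (m : ℝ) (c : ℕ → ℂ) (π : Fin p → ℝ) (y : Fin p) :
    ∑ x, π x * kk p m c x y = (1 / m) * (∑ b ∈ Ico 1 p,
      ((starRingEnd ℂ) (c b) * (starRingEnd ℂ) (hat p (fun y => (π y : ℂ)) b)) *
        e (-((b : ℝ) * ((y : ℕ) : ℝ) / (p : ℝ)))).re := by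
  have h1 : ∀ x : Fin p, π x * kk p m c x y = (1 / m) * ∑ b ∈ Ico 1 p,
      (c b * ((π x : ℂ) * e (-((b : ℝ) * ((x : ℕ) : ℝ) / (p : ℝ))) *
        (starRingEnd ℂ) (((1 : ℝ) : ℂ) * e (-((b : ℝ) * ((y : ℕ) : ℝ) / (p : ℝ)))))).re := by
    intro x
    unfold kk
    rw [mul_left_comm, Finset.mul_sum]
    congr 1
    refine Finset.sum_congr rfl fun b _ => ?_
    rw [← kk_term p (c b) b x y (π x) 1]
    ring
  rw [Finset.sum_congr rfl fun x _ => h1 x, ← Finset.mul_sum, Finset.sum_comm]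
  congr 1
  rw [Complex.re_sum]
  refine Finset.sum_congr rfl fun b _ => ?_
  rw [← Complex.re_sum, ← Finset.mul_sum, ← Finset.sum_mul]
  rw [← Complex.conj_re]
  congr 1
  unfold hat
  simp only [map_mul, Complex.conj_conj, map_sum, Complex.ofReal_one, one_mul, Complex.conj_ofReal]
  ring

theorem kk_energy (p : ℕ) (hp : 1 ≤ p) (m γ B θ : ℝ) (hm : 0 < m) (hγ : 0 ≤ γ) (hB : 0 ≤ B)
    (d : ℕ → ℂ) (π : Fin p → ℝ) (h1 : ∑ x, π x = 1)
    (hd : ∀ b ∈ Ico 1 p, ‖d b‖ ≤ γ * ‖hat p (fun x => (π x : ℂ)) b‖)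
    (h0 : ∀ x, 0 ≤ π x) (hpi : ∀ x, p * π x ≤ B) (hθ : p * ∑ x, π x ^ 2 - 1 ≤ θ)
    (r : Fin p → ℝ) (hr : ∀ x, r x = (1 / m) * (∑ b ∈ Ico 1 p,
      d b * e (-((b : ℝ) * ((x : ℕ) : ℝ) / (p : ℝ)))).re) (c0 : ℝ) (hc0 : c0 = ∑ x, π x * r x) :
    ∑ x, π x * (r x - c0) ^ 2 ≤ B * γ ^ 2 * θ / m ^ 2 := by
  have hvar : ∑ x, π x * (r x - c0) ^ 2 = ∑ x, π x * r x ^ 2 - c0 ^ 2 := by
    have : ∀ x ∈ (univ : Finset (Fin p)), π x * (r x - c0) ^ 2 =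
        π x * r x ^ 2 - 2 * c0 * (π x * r x) + c0 ^ 2 * π x := fun x _ => by ring
    rw [Finset.sum_congr rfl this, Finset.sum_add_distrib, Finset.sum_sub_distrib,
      ← Finset.mul_sum, ← Finset.mul_sum, h1, ← hc0]
    ring
  rw [hvar]
  have hppos : (0 : ℝ) < p := by exact_mod_cast hp
  have h2 : ∑ x, π x * r x ^ 2 ≤ B / p * ((1 / m) ^ 2 * (p * ∑ b ∈ Ico 1 p, ‖d b‖ ^ 2)) := by
    rw [← dual_parseval p hp d, Finset.mul_sum, Finset.mul_sum]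
    refine Finset.sum_le_sum fun x _ => ?_
    have h3 : π x ≤ B / p := by rw [le_div_iff₀ hppos, mul_comm]; exact hpi x
    have h4 : r x ^ 2 ≤ (1 / m) ^ 2 * ‖∑ b ∈ Ico 1 p, d b *
        e (-((b : ℝ) * ((x : ℕ) : ℝ) / (p : ℝ)))‖ ^ 2 := by
      rw [hr x, mul_pow]
      refine mul_le_mul_of_nonneg_left ?_ (by positivity)
      rw [← sq_abs]
      exact pow_le_pow_left₀ (abs_nonneg _) (Complex.abs_re_le_norm _) 2
    calc π x * r x ^ 2 ≤ B / p * r x ^ 2 := mul_le_mul_of_nonneg_right h3 (sq_nonneg _)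
      _ ≤ _ := mul_le_mul_of_nonneg_left h4 (by positivity)
  have h5 : ∑ b ∈ Ico 1 p, ‖d b‖ ^ 2 ≤ γ ^ 2 * θ := by
    calc ∑ b ∈ Ico 1 p, ‖d b‖ ^ 2
        ≤ ∑ b ∈ Ico 1 p, γ ^ 2 * ‖hat p (fun x => (π x : ℂ)) b‖ ^ 2 := by
          refine Finset.sum_le_sum fun b hb => ?_
          rw [← mul_pow]
          exact pow_le_pow_left₀ (norm_nonneg _) (hd b hb) 2
      _ = γ ^ 2 * (p * ∑ x, π x ^ 2 - 1) := by rw [← Finset.mul_sum, hat_energy p hp π h1]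
      _ ≤ _ := mul_le_mul_of_nonneg_left hθ (by positivity)
  have h6 : B / p * ((1 / m) ^ 2 * (p * ∑ b ∈ Ico 1 p, ‖d b‖ ^ 2)) =
      B / m ^ 2 * ∑ b ∈ Ico 1 p, ‖d b‖ ^ 2 := by field_simp
  have h7 : B / m ^ 2 * ∑ b ∈ Ico 1 p, ‖d b‖ ^ 2 ≤ B / m ^ 2 * (γ ^ 2 * θ) :=
    mul_le_mul_of_nonneg_left h5 (by positivity)
  have h8 : B / m ^ 2 * (γ ^ 2 * θ) = B * γ ^ 2 * θ / m ^ 2 := by ring
  nlinarith [sq_nonneg c0]

theorem kb_abs (p : ℕ) (hp : 1 ≤ p) (m γ B θ : ℝ) (hm : 0 < m) (hγ : 0 ≤ γ) (hB : 0 ≤ B)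
    (hθ0 : 0 ≤ θ) (c : ℕ → ℂ) (hc : ∀ b ∈ Ico 1 p, ‖c b‖ ≤ γ) (π : Fin p → ℝ)
    (h1 : ∑ x, π x = 1) (h0 : ∀ x, 0 ≤ π x) (hpi : ∀ x, p * π x ≤ B)
    (hθ : p * ∑ x, π x ^ 2 - 1 ≤ θ) :
    |∑ x, ∑ y, π x * π y * kk p m c x y| ≤ γ * θ / m ∧
    (∀ φ ψ : Fin p → ℝ, |∑ x, ∑ y, π x * π y * (φ x * kk p m c x y * ψ y)| ≤
      γ * B / m * (Real.sqrt (∑ x, π x * φ x ^ 2) * Real.sqrt (∑ y, π y * ψ y ^ 2))) ∧
    ∑ x, π x * ((∑ y, π y * kk p m c x y) - ∑ x, ∑ y, π x * π y * kk p m c x y) ^ 2 ≤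
      B * γ ^ 2 * θ / m ^ 2 ∧
    ∑ y, π y * ((∑ x, π x * kk p m c x y) - ∑ x, ∑ y, π x * π y * kk p m c x y) ^ 2 ≤
      B * γ ^ 2 * θ / m ^ 2 := by
  have hppos : (0 : ℝ) < p := by exact_mod_cast hp
  refine ⟨?_, ?_, ?_, ?_⟩
  · have h := kk_bilin p hp m γ hm hγ c hc π π θ θ (by rw [hat_energy p hp π h1]; exact hθ)
      (by rw [hat_energy p hp π h1]; exact hθ)
    rw [Real.mul_self_sqrt hθ0] at h
    have h2 : ∑ x : Fin p, ∑ y : Fin p, π x * π y * kk p m c x y =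
        ∑ x : Fin p, ∑ y : Fin p, π x * kk p m c x y * π y :=
      Finset.sum_congr rfl fun x _ => Finset.sum_congr rfl fun y _ => by ring
    rw [h2]
    calc _ ≤ γ / m * θ := h
      _ = _ := by ring
  · intro φ ψ
    have hgen : ∀ φ : Fin p → ℝ, ∑ b ∈ Ico 1 p,
        ‖hat p (fun x => ((π x * φ x : ℝ) : ℂ)) b‖ ^ 2 ≤ B * ∑ x, π x * φ x ^ 2 := by
      intro φ
      refine (hat_sum_le p hp _).trans ?_
      rw [Finset.mul_sum, Finset.mul_sum]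
      refine Finset.sum_le_sum fun x _ => ?_
      have h3 : 0 ≤ π x * φ x ^ 2 := mul_nonneg (h0 x) (sq_nonneg _)
      calc (p : ℝ) * (π x * φ x) ^ 2 = (p * π x) * (π x * φ x ^ 2) := by ring
        _ ≤ B * (π x * φ x ^ 2) := mul_le_mul_of_nonneg_right (hpi x) h3
    have h := kk_bilin p hp m γ hm hγ c hc (fun x => π x * φ x) (fun x => π x * ψ x) _ _
      (hgen φ) (hgen ψ)
    have h2 : ∑ x : Fin p, ∑ y : Fin p, π x * π y * (φ x * kk p m c x y * ψ y) =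
        ∑ x : Fin p, ∑ y : Fin p, (π x * φ x) * kk p m c x y * (π y * ψ y) :=
      Finset.sum_congr rfl fun x _ => Finset.sum_congr rfl fun y _ => by ring
    rw [h2]
    refine h.trans (le_of_eq ?_)
    rw [Real.sqrt_mul hB, Real.sqrt_mul hB]
    have h4 : Real.sqrt B * Real.sqrt B = B := Real.mul_self_sqrt hB
    calc γ / m * (Real.sqrt B * Real.sqrt (∑ x, π x * φ x ^ 2) *
          (Real.sqrt B * Real.sqrt (∑ x, π x * ψ x ^ 2)))
        = γ / m * ((Real.sqrt B * Real.sqrt B) * (Real.sqrt (∑ x, π x * φ x ^ 2) *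
          Real.sqrt (∑ x, π x * ψ x ^ 2))) := by ring
      _ = _ := by rw [h4]; ring
  · refine kk_energy p hp m γ B θ hm hγ hB
      (fun b => c b * (starRingEnd ℂ) (hat p (fun y => (π y : ℂ)) b)) π h1 ?_ h0 hpi hθ
      (fun x => ∑ y, π y * kk p m c x y) (fun x => kk_row p m c π x) _ ?_
    · intro b hb
      rw [norm_mul, RCLike.norm_conj]
      exact mul_le_mul_of_nonneg_right (hc b hb) (norm_nonneg _)
    · refine Finset.sum_congr rfl fun x _ => ?_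
      rw [Finset.mul_sum]
      exact Finset.sum_congr rfl fun y _ => by ring
  · refine kk_energy p hp m γ B θ hm hγ hB
      (fun b => (starRingEnd ℂ) (c b) * (starRingEnd ℂ) (hat p (fun y => (π y : ℂ)) b)) π h1 ?_
      h0 hpi hθ (fun y => ∑ x, π x * kk p m c x y) (fun y => kk_col p m c π y) _ ?_
    · intro b hb
      rw [norm_mul, RCLike.norm_conj, RCLike.norm_conj]
      exact mul_le_mul_of_nonneg_right (hc b hb) (norm_nonneg _)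
    · rw [Finset.sum_comm]
      refine Finset.sum_congr rfl fun y _ => ?_
      rw [Finset.mul_sum]
      exact Finset.sum_congr rfl fun x _ => by ring

end Vale.Agent.P042.TT
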