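import Vale.Agent.P042.H333.Kb

set_option autoImplicit false

/-!
Block KB (norms of the kernel of one prime) of Theorem S2: the statement.
-/

namespace Vale.Agent.P042.TT

open Polynomial Finset Vale.Agent.P042.SS

theorem kern_eq_kk (f : ℤ[X]) (μ : ℝ) (V : Finset ℕ) (p : ↥V) (x y : Fin (p : ℕ)) :
    kern f μ V p x y = kk (p : ℕ) μ (fun b => Gam f b (p : ℕ)) x y := rfl

theorem kapProd_prime (kap : ℕ → ℕ → ℝ) (p : ℕ) (hp : p.Prime) : kapProd kap p = kap p 1 := by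
  unfold kapProd
  rw [hp.primeFactors, Finset.prod_singleton, hp.factorization_self]

theorem kb_ev (k p0 : ℕ) : ∀ᶠ P : ℝ in Filter.atTop,
    3 ≤ P ∧ (p0 : ℝ) ≤ P ^ (0.97 : ℝ) ∧ P ^ (-0.488 : ℝ) ≤ 1 / 2 ∧
    5 * (k : ℝ) ≤ P ^ (0.013 : ℝ) ∧ 2 * (k : ℝ) ≤ P ^ (0.005 : ℝ) ∧
    10 * (k : ℝ) ^ 2 ≤ P ^ (0.001 : ℝ) := by
  have t1 := (tendsto_rpow_atTop (show (0 : ℝ) < 0.97 by norm_num)).eventually_ge_atTop (p0 : ℝ)
  have t2 := (tendsto_rpow_atTop (show (0 : ℝ) < 0.488 by norm_num)).eventually_ge_atTop (2 : ℝ)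
  have t3 := (tendsto_rpow_atTop (show (0 : ℝ) < 0.013 by norm_num)).eventually_ge_atTop
    (5 * (k : ℝ))
  have t4 := (tendsto_rpow_atTop (show (0 : ℝ) < 0.005 by norm_num)).eventually_ge_atTop
    (2 * (k : ℝ))
  have t5 := (tendsto_rpow_atTop (show (0 : ℝ) < 0.001 by norm_num)).eventually_ge_atTop
    (10 * (k : ℝ) ^ 2)
  filter_upwards [t1, t2, t3, t4, t5, Filter.eventually_ge_atTop (3 : ℝ)] with P h1 h2 h3 h4 h5 h6
  refine ⟨h6, h1, ?_, h3, h4, h5⟩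
  have : P ^ (-0.488 : ℝ) = (P ^ (0.488 : ℝ))⁻¹ := Real.rpow_neg (by linarith) _
  rw [this, one_div]
  exact inv_anti₀ (by norm_num) h2

theorem kb_of_nu2 (hNU : NU2Stmt) : KBStmt := by
  intro k E K p0 kap hk hE hkap
  obtain ⟨P1, hP1⟩ := hNU k hk
  obtain ⟨P2, hP2⟩ := Filter.eventually_atTop.1 (kb_ev k p0)
  refine ⟨max P1 P2, ?_⟩
  intro P hP N' Nmin Φ G ν hSt f V hV hGam p
  have hnu := hP1 P ((le_max_left _ _).trans hP) N' Nmin Φ G ν hSt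
  obtain ⟨hP3, hp0, hb2, hc1, hc2, hc3⟩ := hP2 P ((le_max_right _ _).trans hP)
  have hPpos : 0 < P := by linarith
  have hpW : (p : ℕ) ∈ W2 P := hV p.2
  have hmem := hpW
  unfold W2 Wp at hmem
  rw [Finset.mem_filter, Finset.mem_Ioc] at hmem
  have hpp : (p : ℕ).Prime := hmem.2
  have hp1 : 1 ≤ (p : ℕ) := hpp.one_lt.le
  have hppos : (0 : ℝ) < ((p : ℕ) : ℝ) := by exact_mod_cast hpp.pos
  have hpge : P ^ (0.97 : ℝ) ≤ ((p : ℕ) : ℝ) := (Nat.lt_of_floor_lt hmem.1.1).le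
  have hp0p : p0 < (p : ℕ) := by
    have : (p0 : ℝ) < ((p : ℕ) : ℝ) := by
      refine lt_of_le_of_lt hp0 (Nat.lt_of_floor_lt hmem.1.1)
    exact_mod_cast this
  obtain ⟨hW, hz, -, -, -, hsq⟩ := hnu
  have hmean := hSt.pin.wts.mean (p : ℕ) hpW
  have hnn := hSt.pin.wts.nn (p : ℕ)
  set π : Fin (p : ℕ) → ℝ := fun x => piV ν V p x with hπ
  have hπx : ∀ x, π x = ν (p : ℕ) ((x : ℕ) : ℤ) / ((p : ℕ) : ℝ) := fun x => rfl
  have hsum1 : ∑ x, π x = 1 := by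
    have h1 : ∑ x : Fin (p : ℕ), π x =
        ∑ x ∈ range (p : ℕ), ν (p : ℕ) (x : ℤ) / ((p : ℕ) : ℝ) :=
      Fin.sum_univ_eq_sum_range (fun x : ℕ => ν (p : ℕ) (x : ℤ) / ((p : ℕ) : ℝ)) (p : ℕ)
    rw [h1, ← Finset.sum_div, hmean, div_self hppos.ne']
  have h0 : ∀ x, 0 ≤ π x := fun x => div_nonneg (hnn _) hppos.le
  have hB : Real.exp (b2 P) ≤ 2 := by
    have h1 : b2 P ≤ 1 / 2 := hb2
    have h2 : Real.exp (b2 P) ≤ Real.exp (1 / 2) := Real.exp_le_exp.2 h1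
    have h3 : Real.exp (1 / 2 : ℝ) ≤ 2 := by
      have h4 : (Real.exp (1 / 2 : ℝ)) ^ 2 = Real.exp 1 := by
        rw [← Real.exp_nat_mul]; norm_num
      have h5 := Real.exp_one_lt_d9
      nlinarith [Real.exp_pos (1 / 2 : ℝ)]
    exact h2.trans h3
  have hpi : ∀ x, ((p : ℕ) : ℝ) * π x ≤ 2 := by
    intro x
    rw [hπx, mul_div_cancel₀ _ hppos.ne']
    exact ((hW (p : ℕ) hpW _).1).trans hB
  have hθ : ((p : ℕ) : ℝ) * ∑ x, π x ^ 2 - 1 ≤ 5 * b2 P := by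
    have h1 : ∑ x : Fin (p : ℕ), π x ^ 2 =
        ∑ x ∈ range (p : ℕ), (ν (p : ℕ) (x : ℤ) / ((p : ℕ) : ℝ)) ^ 2 :=
      Fin.sum_univ_eq_sum_range (fun x : ℕ => (ν (p : ℕ) (x : ℤ) / ((p : ℕ) : ℝ)) ^ 2) (p : ℕ)
    have h2 := hsq (p : ℕ) hpW
    have h3 : (∑ x ∈ range (p : ℕ), (ν (p : ℕ) (x : ℤ) - 1) ^ 2) / ((p : ℕ) : ℝ) =
        ((p : ℕ) : ℝ) * ∑ x : Fin (p : ℕ), π x ^ 2 - 1 := by
      rw [h1]
      have h4 : ∀ x ∈ range (p : ℕ), (ν (p : ℕ) (x : ℤ) - 1) ^ 2 =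
          ν (p : ℕ) (x : ℤ) ^ 2 - 2 * ν (p : ℕ) (x : ℤ) + 1 := fun x _ => by ring
      rw [Finset.sum_congr rfl h4, Finset.sum_add_distrib, Finset.sum_sub_distrib,
        ← Finset.mul_sum, hmean]
      have h5 : ∀ x ∈ range (p : ℕ), (ν (p : ℕ) (x : ℤ) / ((p : ℕ) : ℝ)) ^ 2 =
          ν (p : ℕ) (x : ℤ) ^ 2 / ((p : ℕ) : ℝ) ^ 2 := fun x _ => by rw [div_pow]
      rw [Finset.sum_congr rfl h5, ← Finset.sum_div]
      simp only [Finset.sum_const, Finset.card_range, nsmul_eq_mul, mul_one]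
      field_simp
      ring
    rw [← h3]
    exact h2
  have hγ : ∀ b ∈ Ico 1 (p : ℕ), ‖Gam f ((b : ℕ) : ℤ) (p : ℕ)‖ ≤ k * P ^ (-0.485 : ℝ) := by
    intro b hb
    rw [Finset.mem_Ico] at hb
    have hco : IsCoprime ((b : ℕ) : ℤ) (((p : ℕ) : ℕ) : ℤ) := by
      rw [Nat.isCoprime_iff_coprime]
      exact Nat.Coprime.symm ((Nat.Prime.coprime_iff_not_dvd hpp).2 fun h =>
        absurd (Nat.le_of_dvd (by omega) h) (by omega))
    have h1 := hGam (p : ℕ) b hp1 hco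
    rw [kapProd_prime kap _ hpp] at h1
    refine h1.trans ((hkap.one _ hpp hp0p).trans ?_)
    have h2 : P ^ (0.485 : ℝ) ≤ Real.sqrt ((p : ℕ) : ℝ) := by
      apply Real.le_sqrt_of_sq_le
      have e0 : (0.485 : ℝ) * ((2 : ℕ) : ℝ) = 0.97 := by norm_num
      rw [← Real.rpow_natCast, ← Real.rpow_mul hPpos.le, e0]
      exact hpge
    have h3 : P ^ (-0.485 : ℝ) = (P ^ (0.485 : ℝ))⁻¹ := Real.rpow_neg hPpos.le _
    rw [h3, div_eq_mul_inv]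
    exact mul_le_mul_of_nonneg_left (inv_anti₀ (by positivity) h2) (by positivity)
  have hμ : 0 < mu2 P := by unfold mu2; positivity
  have hb0 : 0 ≤ 5 * b2 P := by unfold b2; positivity
  obtain ⟨g1, g2, g3, g4⟩ := kb_abs (p : ℕ) hp1 (mu2 P) (k * P ^ (-0.485 : ℝ)) 2 (5 * b2 P) hμ
    (by positivity) (by norm_num) hb0 (fun b => Gam f b (p : ℕ)) hγ π hsum1 h0 hpi hθ
  have eμ : (mu2 P)⁻¹ = P ^ (0.05 : ℝ) := by
    unfold mu2
    rw [← Real.rpow_neg hPpos.le]; norm_num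
  refine ⟨?_, ?_, ?_, ?_⟩
  · refine g1.trans ?_
    rw [div_eq_mul_inv, eμ]
    unfold b2
    have e1 : (k : ℝ) * P ^ (-0.485 : ℝ) * (5 * P ^ (-0.488 : ℝ)) * P ^ (0.05 : ℝ) =
        5 * k * (P ^ (-0.485 : ℝ) * P ^ (-0.488 : ℝ) * P ^ (0.05 : ℝ)) := by ring
    rw [e1, ← Real.rpow_add hPpos, ← Real.rpow_add hPpos]
    calc 5 * (k : ℝ) * P ^ ((-0.485 : ℝ) + -0.488 + 0.05)
        ≤ P ^ (0.013 : ℝ) * P ^ ((-0.485 : ℝ) + -0.488 + 0.05) :=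
          mul_le_mul_of_nonneg_right hc1 (by positivity)
      _ = P ^ (-0.91 : ℝ) := by rw [← Real.rpow_add hPpos]; norm_num
  · intro φ ψ
    refine (g2 φ ψ).trans ?_
    refine mul_le_mul_of_nonneg_right ?_ (by positivity)
    rw [div_eq_mul_inv, eμ]
    have e1 : (k : ℝ) * P ^ (-0.485 : ℝ) * 2 * P ^ (0.05 : ℝ) =
        2 * k * (P ^ (-0.485 : ℝ) * P ^ (0.05 : ℝ)) := by ring
    rw [e1, ← Real.rpow_add hPpos]
    calc 2 * (k : ℝ) * P ^ ((-0.485 : ℝ) + 0.05)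
        ≤ P ^ (0.005 : ℝ) * P ^ ((-0.485 : ℝ) + 0.05) :=
          mul_le_mul_of_nonneg_right hc2 (by positivity)
      _ = P ^ (-0.43 : ℝ) := by rw [← Real.rpow_add hPpos]; norm_num
  all_goals
    refine le_trans ?_ (show 2 * (k * P ^ (-0.485 : ℝ)) ^ 2 * (5 * b2 P) / (mu2 P) ^ 2 ≤
      (P ^ (-0.6785 : ℝ)) ^ 2 from ?_)
    · first
        | exact g3
        | exact g4
    · rw [div_eq_mul_inv, ← inv_pow, eμ]
      unfold b2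
      have e1 : 2 * ((k : ℝ) * P ^ (-0.485 : ℝ)) ^ 2 * (5 * P ^ (-0.488 : ℝ)) *
          (P ^ (0.05 : ℝ)) ^ 2 = 10 * (k : ℝ) ^ 2 * ((P ^ (-0.485 : ℝ)) ^ 2 * P ^ (-0.488 : ℝ) *
          (P ^ (0.05 : ℝ)) ^ 2) := by ring
      have sqr : ∀ x y : ℝ, x * 2 = y → (P ^ x) ^ 2 = P ^ y := by
        intro x y hxy
        rw [← Real.rpow_natCast (P ^ x) 2, ← Real.rpow_mul hPpos.le, Nat.cast_ofNat, hxy]
      rw [e1, sqr (-0.485) (-0.97) (by norm_num), sqr (0.05) (0.1) (by norm_num),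
        sqr (-0.6785) (-1.357) (by norm_num), ← Real.rpow_add hPpos, ← Real.rpow_add hPpos]
      calc 10 * (k : ℝ) ^ 2 * P ^ ((-0.97 : ℝ) + -0.488 + 0.1)
          ≤ P ^ (0.001 : ℝ) * P ^ ((-0.97 : ℝ) + -0.488 + 0.1) :=
            mul_le_mul_of_nonneg_right hc3 (by positivity)
        _ = P ^ (-1.357 : ℝ) := by
            rw [← Real.rpow_add hPpos]; norm_num

end Vale.Agent.P042.TT
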