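import Vale.Agent.P042.TT.CellB
import Vale.Agent.P042.TT.AnovaA

set_option autoImplicit false

/-!
Block MOM of Theorem S2: high moments of the random densities.
-/

namespace Vale.Agent.P042.TT

open Polynomial Finset Vale.Agent.P042.SS Filter

namespace Mom

section abstr

variable {ι : Type} [Fintype ι] [DecidableEq ι] {Ω : ι → Type} [∀ i, Fintype (Ω i)]

theorem Ex_mul (π : ∀ i, Ω i → ℝ) (a : ℝ) (T : Finset ι) (f : (∀ i, Ω i) → ℝ) (x : ∀ i, Ω i) :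
    Ex π T (fun z => a * f z) x = a * Ex π T f x := by
  unfold Ex Ev
  rw [Finset.mul_sum]
  refine Finset.sum_congr rfl fun y _ => ?_
  simp only [smul_eq_mul]
  ring

theorem rho_mul (π : ∀ i, Ω i → ℝ) (a : ℝ) (f : (∀ i, Ω i) → ℝ) (S : Finset ι)
    (x : ∀ i, Ω i) : rho π (fun z => a * f z) S x = a * rho π f S x :=
  Ex_mul π a Sᶜ f x

theorem rho_nonneg {π : ∀ i, Ω i → ℝ} (hπ : IsPr π) {f : (∀ i, Ω i) → ℝ} (hf : ∀ x, 0 ≤ f x)
    (S : Finset ι) (x : ∀ i, Ω i) : 0 ≤ rho π f S x :=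
  hπ.Ev_nonneg fun _ => hf _

/-- rescaling -/
theorem psi_scaled {π : ∀ i, Ω i → ℝ} (hπ : IsPr π) {f : (∀ i, Ω i) → ℝ} (hf : ∀ x, 0 ≤ f x)
    (S : Finset ι) (x0 : ∀ i, Ω i) (s θ a E : ℝ) (ha : 0 < a) (hE : 0 ≤ E)
    (h : ∑ T ∈ Sᶜ.powerset, wtR (fun _ => s) Sᶜ T *
        Ex π T (fun z => (rho π (fun z => a * f z) (S ∪ T) z) ^ (1 + θ)) x0 ≤ E ^ (1 + θ)) :
    ∑ T ∈ Sᶜ.powerset, wtR (fun _ => s) Sᶜ T *
        Ex π T (fun z => (rho π f (S ∪ T) z) ^ (1 + θ)) x0 ≤ (E / a) ^ (1 + θ) := by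
  have h1 : ∀ T ∈ Sᶜ.powerset, wtR (fun _ => s) Sᶜ T *
        Ex π T (fun z => (rho π (fun z => a * f z) (S ∪ T) z) ^ (1 + θ)) x0 =
      a ^ (1 + θ) * (wtR (fun _ => s) Sᶜ T *
        Ex π T (fun z => (rho π f (S ∪ T) z) ^ (1 + θ)) x0) := by
    intro T _
    have h2 : (fun z => (rho π (fun z => a * f z) (S ∪ T) z) ^ (1 + θ)) =
        fun z => a ^ (1 + θ) * (rho π f (S ∪ T) z) ^ (1 + θ) := by
      funext z
      rw [rho_mul, Real.mul_rpow ha.le (rho_nonneg hπ hf _ _)]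
    rw [h2, Ex_mul]
    ring
  rw [Finset.sum_congr rfl h1, ← Finset.mul_sum] at h
  rw [Real.div_rpow hE ha.le, le_div_iff₀ (Real.rpow_pos_of_pos ha _), mul_comm]
  exact h

end abstr

theorem sum_powerset_sub (V : Finset ℕ) (g : Finset ℕ → ℝ) :
    ∑ W : Finset ↥V, g (W.map (Function.Embedding.subtype _)) = ∑ W ∈ V.powerset, g W := by
  classical
  refine Finset.sum_nbij' (fun W => W.map (Function.Embedding.subtype _))
    (fun S => S.subtype (· ∈ V)) ?_ ?_ ?_ ?_ ?_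
  · intro W _
    rw [Finset.mem_powerset]
    intro x hx
    rw [Finset.mem_map] at hx
    obtain ⟨y, _, rfl⟩ := hx
    exact y.2
  · intro S _
    exact Finset.mem_univ _
  · intro W _
    ext x
    simp
  · intro S hS
    rw [Finset.mem_powerset] at hS
    exact Finset.subtype_map_of_mem fun x hx => hS hx
  · intro W _
    rfl

theorem wtR_map (t : ℝ) (V : Finset ℕ) (T : Finset ↥V) :
    wtR (fun _ : ℕ => t) V (T.map (Function.Embedding.subtype _)) =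
      wtR (fun _ : ↥V => t) univ T := by
  have hsub : T.map (Function.Embedding.subtype _) ⊆ V := by
    intro x hx
    rw [Finset.mem_map] at hx
    obtain ⟨y, _, rfl⟩ := hx
    exact y.2
  unfold wtR
  rw [Finset.prod_const, Finset.prod_const, Finset.prod_const, Finset.prod_const,
    Finset.card_map, Finset.card_sdiff_of_subset hsub, Finset.card_map,
    Finset.card_sdiff_of_subset (Finset.subset_univ T), Finset.card_univ, Fintype.card_coe]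

theorem pow_dom (a b c : ℝ) (hab : a < b) : ∀ᶠ P : ℝ in Filter.atTop, c * P ^ a ≤ P ^ b := by
  have h := tendsto_rpow_atTop (sub_pos.2 hab)
  filter_upwards [h.eventually_ge_atTop c, Filter.eventually_gt_atTop 0] with P h1 h2
  have h3 : P ^ b = P ^ (b - a) * P ^ a := by
    rw [← Real.rpow_add h2]; congr 1; ring
  rw [h3]
  exact mul_le_mul_of_nonneg_right h1 (Real.rpow_nonneg h2.le a)

structure MomBig (C0 P : ℝ) : Prop where
  one_le : 1 ≤ P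
  s_le : 4 * C0 * P ^ (-0.34 : ℝ) ≤ 1
  cond : 64 * C0 * P ^ (-0.313 : ℝ) ≤ P ^ (-0.05 : ℝ)
  k1 : 64 * C0 * (1 + C0) * P ^ (-0.069 : ℝ) ≤ 1
  k2 : 1600 * C0 * P ^ (-0.751 : ℝ) ≤ 1
  b : 200 * P ^ (-0.488 : ℝ) ≤ 1

theorem mom_big (C0 : ℝ) : ∀ᶠ P : ℝ in Filter.atTop, MomBig C0 P := by
  filter_upwards [Filter.eventually_ge_atTop 1, pow_dom (-0.34) 0 (4 * C0) (by norm_num),
    pow_dom (-0.313) (-0.05) (64 * C0) (by norm_num),
    pow_dom (-0.069) 0 (64 * C0 * (1 + C0)) (by norm_num),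
    pow_dom (-0.751) 0 (1600 * C0) (by norm_num),
    pow_dom (-0.488) 0 200 (by norm_num)] with P h1 h2 h3 h4 h5 h6
  rw [Real.rpow_zero] at h2 h4 h5 h6
  exact ⟨h1, h2, h3, h4, h5, h6⟩

/-- `U^θ` is small -/
theorem U_le {P θ : ℝ} (hP : 1 ≤ P) (hθ0 : 0 ≤ θ) (hθ : θ ≤ 1 / 39) :
    (16 * P ^ (1.04 : ℝ)) ^ θ ≤ 2 * P ^ (0.027 : ℝ) := by
  have hP0 : 0 ≤ P := by linarith
  have h1 : (1 : ℝ) ≤ P ^ (1.04 : ℝ) := Real.one_le_rpow hP (by norm_num)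
  rw [Real.mul_rpow (by norm_num) (by positivity)]
  have h2 : (16 : ℝ) ^ θ ≤ 2 := by
    have h3 : (16 : ℝ) ^ θ ≤ (16 : ℝ) ^ (1 / 4 : ℝ) :=
      Real.rpow_le_rpow_of_exponent_le (by norm_num) (by linarith)
    have h4 : (16 : ℝ) ^ (1 / 4 : ℝ) = 2 := by
      rw [show (16 : ℝ) = 2 ^ (4 : ℝ) by norm_num, ← Real.rpow_mul (by norm_num)]
      norm_num
    linarith
  have h5 : (P ^ (1.04 : ℝ)) ^ θ ≤ P ^ (0.027 : ℝ) := by
    rw [← Real.rpow_mul hP0]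
    exact Real.rpow_le_rpow_of_exponent_le hP (by nlinarith)
  exact mul_le_mul h2 h5 (by positivity) (by norm_num)

/-- the exponent of PSI -/
theorem expo_le {C0 P θ s u τ b lR v A0 c : ℝ} (hC0 : 0 ≤ C0) (hB : MomBig C0 P) (hθ0 : 0 ≤ θ)
    (hθ : θ ≤ 1 / 39) (hs0 : 0 ≤ s) (hs : s = C0 * P ^ (-0.34 : ℝ)) (hu0 : 0 ≤ u)
    (hu : u ≤ 2 * P ^ (0.027 : ℝ)) (hτ0 : 0 < τ) (hτ : 1 / τ ≤ 4 * P ^ (0.05 : ℝ))
    (hb : b = P ^ (-0.488 : ℝ)) (hlR0 : 0 ≤ lR) (hlR : lR ≤ P ^ (0.63 : ℝ)) (hv0 : 0 ≤ v)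
    (hv : v ≤ P ^ (0.995 : ℝ)) (hc : 0 ≤ c) (hA0 : A0 = 2 + 5 * b * lR + 2 * b * c) :
    3 * θ * (1 + θ) * u * s * (A0 + 1 + (2 * b + 2 * b) * u * (v * s)) / τ ≤ 1 + 0.01 * c := by
  have hP1 := hB.one_le
  have hP0 : 0 < P := by linarith
  have hb0 : 0 ≤ b := by rw [hb]; positivity
  have h1 : 3 * θ * (1 + θ) ≤ 1 := by nlinarith
  have h2 : u * s * (1 / τ) ≤ 8 * C0 * P ^ (-0.263 : ℝ) := by
    calc u * s * (1 / τ) ≤ (2 * P ^ (0.027 : ℝ)) * (C0 * P ^ (-0.34 : ℝ)) *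
          (4 * P ^ (0.05 : ℝ)) := by
          rw [hs]
          gcongr
      _ = 8 * C0 * (P ^ (0.027 : ℝ) * P ^ (-0.34 : ℝ) * P ^ (0.05 : ℝ)) := by ring
      _ = 8 * C0 * P ^ (-0.263 : ℝ) := by
          rw [← Real.rpow_add hP0, ← Real.rpow_add hP0]; norm_num
  have h3 : 5 * b * lR ≤ 5 * P ^ (0.142 : ℝ) := by
    calc 5 * b * lR ≤ 5 * P ^ (-0.488 : ℝ) * P ^ (0.63 : ℝ) := by
          rw [hb]
          gcongr
      _ = 5 * (P ^ (-0.488 : ℝ) * P ^ (0.63 : ℝ)) := by ring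
      _ = 5 * P ^ (0.142 : ℝ) := by rw [← Real.rpow_add hP0]; norm_num
  have h4 : (2 * b + 2 * b) * u * (v * s) ≤ 8 * C0 * P ^ (0.194 : ℝ) := by
    calc (2 * b + 2 * b) * u * (v * s) = 4 * b * u * (v * s) := by ring
      _ ≤ 4 * P ^ (-0.488 : ℝ) * (2 * P ^ (0.027 : ℝ)) *
          (P ^ (0.995 : ℝ) * (C0 * P ^ (-0.34 : ℝ))) := by
          rw [hb, hs]
          gcongr
      _ = 8 * C0 * (P ^ (-0.488 : ℝ) * P ^ (0.027 : ℝ) * P ^ (0.995 : ℝ) *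
          P ^ (-0.34 : ℝ)) := by ring
      _ = 8 * C0 * P ^ (0.194 : ℝ) := by
          rw [← Real.rpow_add hP0, ← Real.rpow_add hP0, ← Real.rpow_add hP0]; norm_num
  have h5 : P ^ (0.142 : ℝ) ≤ P ^ (0.194 : ℝ) :=
    Real.rpow_le_rpow_of_exponent_le hP1 (by norm_num)
  have h6 : 1 ≤ P ^ (0.194 : ℝ) := Real.one_le_rpow hP1 (by norm_num)
  have h7 : A0 + 1 + (2 * b + 2 * b) * u * (v * s) ≤
      8 * (1 + C0) * P ^ (0.194 : ℝ) + 2 * b * c := by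
    rw [hA0]
    nlinarith
  have h8 : 0 ≤ A0 + 1 + (2 * b + 2 * b) * u * (v * s) := by
    rw [hA0]
    positivity
  have h9 : P ^ (-0.263 : ℝ) * P ^ (0.194 : ℝ) = P ^ (-0.069 : ℝ) := by
    rw [← Real.rpow_add hP0]; norm_num
  have h10 : P ^ (-0.263 : ℝ) * P ^ (-0.488 : ℝ) = P ^ (-0.751 : ℝ) := by
    rw [← Real.rpow_add hP0]; norm_num
  calc 3 * θ * (1 + θ) * u * s * (A0 + 1 + (2 * b + 2 * b) * u * (v * s)) / τ
      = (3 * θ * (1 + θ)) * ((u * s * (1 / τ)) *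
        (A0 + 1 + (2 * b + 2 * b) * u * (v * s))) := by ring
    _ ≤ 1 * ((u * s * (1 / τ)) * (A0 + 1 + (2 * b + 2 * b) * u * (v * s))) := by
        apply mul_le_mul_of_nonneg_right h1
        positivity
    _ ≤ 1 * ((8 * C0 * P ^ (-0.263 : ℝ)) *
        (8 * (1 + C0) * P ^ (0.194 : ℝ) + 2 * b * c)) := by
        rw [one_mul, one_mul]
        exact mul_le_mul h2 h7 h8 (by positivity)
    _ = 64 * C0 * (1 + C0) * (P ^ (-0.263 : ℝ) * P ^ (0.194 : ℝ)) +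
        16 * C0 * (P ^ (-0.263 : ℝ) * P ^ (-0.488 : ℝ)) * c := by
        rw [hb]; ring
    _ ≤ 1 + 0.01 * c := by
        rw [h9, h10]
        have h11 := hB.k1
        have h12 : 16 * C0 * P ^ (-0.751 : ℝ) ≤ 0.01 := by
          have := hB.k2
          linarith
        have h13 : 16 * C0 * P ^ (-0.751 : ℝ) * c ≤ 0.01 * c :=
          mul_le_mul_of_nonneg_right h12 hc
        linarith

end Mom

end Vale.Agent.P042.TT
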