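import Vale.Agent.P042.H333.Mom

set_option autoImplicit false

/-!
Block MOM of Theorem S2: assembly.
-/

namespace Vale.Agent.P042.TT

open Polynomial Finset Vale.Agent.P042.SS Filter

namespace Mom

theorem tau2_inv {P : ℝ} (hP : 1 ≤ P) : 0 < tau2 P ∧ 1 / tau2 P ≤ 4 * P ^ (0.05 : ℝ) := by
  have h1 : (1 : ℝ) ≤ P ^ (0.05 : ℝ) := Real.one_le_rpow hP (by norm_num)
  have h2 : (0 : ℝ) < (J2 P : ℝ) := by
    have : 0 < J2 P := Nat.ceil_pos.2 (by linarith)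
    exact_mod_cast this
  have h3 : (J2 P : ℝ) ≤ P ^ (0.05 : ℝ) + 1 := (Nat.ceil_lt_add_one (by linarith)).le
  unfold tau2
  refine ⟨by positivity, ?_⟩
  rw [one_div_one_div]
  linarith

theorem card_le {k : ℕ} {P : ℝ} (hB : CellBig k P) {V : Finset ℕ} (hV : V ⊆ W2 P)
    (hlog : ∑ p ∈ V, Real.log p ≤ P ^ (0.995 : ℝ)) : (V.card : ℝ) ≤ P ^ (0.995 : ℝ) := by
  calc (V.card : ℝ) = ∑ _p ∈ V, (1 : ℝ) := by simp
    _ ≤ ∑ p ∈ V, Real.log p := Finset.sum_le_sum fun p hp => W2_log_one hB (hV hp)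
    _ ≤ _ := hlog

/-- final comparison at one point -/
theorem point_le {A0 X b lR c : ℝ} {S : ℕ} {θ ρ sum1 : ℝ}
    (hθ0 : 0 ≤ θ) (hc : c = S) (hρ0 : 0 ≤ ρ) (hρ : ρ ≤ Real.exp A0) (hA0' : 0 ≤ A0)
    (hX : X ≤ 1 + 0.01 * c) (hA0 : A0 = 2 + 5 * b * lR + 2 * b * c)
    (hsum : sum1 + 1 ≤ (ρ ^ (1 + θ) + 1) * Real.exp X) :
    sum1 ≤ (Real.exp (4 + 5 * b * lR + (2 * b + 0.01) * c)) ^ (1 + θ) := by
  have hc0 : 0 ≤ c := by rw [hc]; positivity
  have h1 : ρ ^ (1 + θ) ≤ Real.exp (A0 * (1 + θ)) := by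
    calc ρ ^ (1 + θ) ≤ (Real.exp A0) ^ (1 + θ) := Real.rpow_le_rpow hρ0 hρ (by linarith)
      _ = _ := by rw [← Real.exp_mul]
  have h2 : (1 : ℝ) ≤ Real.exp (A0 * (1 + θ)) := Real.one_le_exp (by positivity)
  have h3 : (2 : ℝ) ≤ Real.exp 1 := by
    have := Real.add_one_le_exp (1 : ℝ)
    linarith
  have h4 : Real.exp X ≤ Real.exp (1 + 0.01 * c) := Real.exp_le_exp.2 hX
  have hE1 := Real.exp_pos (A0 * (1 + θ))
  have hE2 := Real.exp_pos (1 + 0.01 * c)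
  calc sum1 ≤ (ρ ^ (1 + θ) + 1) * Real.exp X := by linarith
    _ ≤ (2 * Real.exp (A0 * (1 + θ))) * Real.exp (1 + 0.01 * c) := by
        refine mul_le_mul (by linarith) h4 (Real.exp_pos _).le (by positivity)
    _ ≤ (Real.exp 1 * Real.exp (A0 * (1 + θ))) * Real.exp (1 + 0.01 * c) := by gcongr
    _ = Real.exp (1 + A0 * (1 + θ) + (1 + 0.01 * c)) := by rw [← Real.exp_add, ← Real.exp_add]
    _ ≤ Real.exp ((4 + 5 * b * lR + (2 * b + 0.01) * c) * (1 + θ)) := by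
        refine Real.exp_le_exp.2 ?_
        have : 4 + 5 * b * lR + (2 * b + 0.01) * c = A0 + 2 + 0.01 * c := by rw [hA0]; ring
        rw [this]
        have h5 : 0 ≤ θ * (2 + 0.01 * c) := by positivity
        nlinarith
    _ = _ := by rw [← Real.exp_mul]

/-- comparison with the growth constant `17` -/
theorem growth_le {b lR MΦ Rr pr : ℝ} {S : ℕ} (hb : 200 * b ≤ 1)
    (hMΦ : 0 < MΦ) (hR : 0 < Rr) (hlR : lR = Real.log Rr) (hpr : (1 / 16 : ℝ) ^ S ≤ pr) :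
    Real.exp (4 + 5 * b * lR + (2 * b + 0.01) * S) / (pr * Rr / MΦ) ≤
      17 ^ S * (Real.exp 4 * Rr ^ (5 * b) * (MΦ / Rr)) := by
  have hpr0 : 0 < pr := lt_of_lt_of_le (by positivity) hpr
  have h1 : Real.exp (4 + 5 * b * lR + (2 * b + 0.01) * S) =
      Real.exp 4 * Rr ^ (5 * b) * Real.exp ((2 * b + 0.01) * S) := by
    rw [Real.exp_add, Real.exp_add, Real.rpow_def_of_pos hR, hlR, mul_comm (Real.log Rr)]
  have h2 : Real.exp ((2 * b + 0.01) * S) ≤ (17 / 16 : ℝ) ^ S := by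
    rw [mul_comm, Real.exp_nat_mul]
    refine pow_le_pow_left₀ (Real.exp_pos _).le ?_ S
    have h3 : Real.exp (2 * b + 0.01) ≤ Real.exp (0.05 : ℝ) := Real.exp_le_exp.2 (by linarith)
    have h4 : (1 : ℝ) - 0.05 ≤ Real.exp (-(0.05 : ℝ)) := by
      have := Real.add_one_le_exp (-(0.05 : ℝ))
      linarith
    rw [Real.exp_neg] at h4
    have h5 := Real.exp_pos (0.05 : ℝ)
    have h6 : (0.95 : ℝ) * Real.exp 0.05 ≤ 1 := by
      calc (0.95 : ℝ) * Real.exp 0.05 ≤ (Real.exp 0.05)⁻¹ * Real.exp 0.05 := by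
            refine mul_le_mul_of_nonneg_right ?_ h5.le
            linarith
        _ = 1 := inv_mul_cancel₀ h5.ne'
    linarith
  have h7 : 1 / pr ≤ 16 ^ S := by
    rw [div_le_iff₀ hpr0]
    calc (1 : ℝ) = 16 ^ S * (1 / 16) ^ S := by rw [← mul_pow]; norm_num
      _ ≤ 16 ^ S * pr := by gcongr
  rw [h1]
  have h8 : Real.exp 4 * Rr ^ (5 * b) * Real.exp ((2 * b + 0.01) * S) / (pr * Rr / MΦ) =
      (Real.exp ((2 * b + 0.01) * S) * (1 / pr)) * (Real.exp 4 * Rr ^ (5 * b) * (MΦ / Rr)) := by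
    field_simp
  rw [h8]
  refine mul_le_mul_of_nonneg_right ?_ (by positivity)
  calc Real.exp ((2 * b + 0.01) * S) * (1 / pr) ≤ (17 / 16 : ℝ) ^ S * 16 ^ S := by gcongr
    _ = 17 ^ S := by rw [← mul_pow]; norm_num

end Mom

theorem mom_of (hPsi : PSIStmt) (hLoc : LOCStmt) (hCell : CELLStmt) (hBr : BRStmt)
    (hNu : NU2Stmt) : MOMStmt := by
  intro k m hk hm
  obtain ⟨C0, hC0, hloc⟩ := hLoc m 17 (by omega) (by norm_num)
  obtain ⟨P1, hP1⟩ := hCell k hk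
  obtain ⟨P2, hP2⟩ := hNu k hk
  obtain ⟨P3, hP3⟩ := Filter.eventually_atTop.1 ((Mom.mom_big C0).and (cell_big k))
  refine ⟨max (Real.exp (8 * m)) (10 * m), max P1 (max P2 P3),
    lt_max_of_lt_left (Real.exp_pos _), ?_⟩
  intro P hP N' Nmin Φ G ν hSt V R M y r hV hVlog hR hVR hRlog hMN hNM
  obtain ⟨hMB, hCB⟩ := hP3 P (((le_max_right _ _).trans (le_max_right _ _)).trans hP)
  have hcellP := hP1 P ((le_max_left _ _).trans hP) N' Nmin Φ G ν hSt
  obtain ⟨hn1, _, hn3, _, hn5, _⟩ :=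
    hP2 P (((le_max_left _ _).trans (le_max_right _ _)).trans hP) N' Nmin Φ G ν hSt
  have hPone := hMB.one_le
  have hPpos : 0 < P := by linarith
  have hΦ := hSt.pin.Φpos
  have hprime : ∀ p ∈ V, p.Prime := fun p hp => (W2_mem (hV hp)).1
  have hw : Wts V ν := ⟨hSt.pin.wts.nn, fun p hp => hSt.pin.wts.per p (hV hp),
    fun p hp => hSt.pin.wts.mean p (hV hp)⟩
  have hGV : ∀ n, G n ≠ 0 → ∀ p ∈ V, ν p n ≠ 0 := fun n hn p hp => hn3 n hn p (hV hp)
  obtain ⟨hpi, _, _, hmo, _, _⟩ := hBr V ν G y M R r 0 hprime hw hGV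
  have hR0 : (0 : ℝ) < R := by exact_mod_cast hR
  have hM0 : (0 : ℝ) < M := by
    have h1 := hSt.N'lo
    have h2 := Real.exp_pos (7 / 8 * P)
    have h3 : 0 < P * M := by linarith
    rcases Nat.eq_zero_or_pos M with h | h
    · rw [h, Nat.cast_zero, mul_zero] at h3
      exact absurd h3 (lt_irrefl _)
    · exact_mod_cast h
  have hMΦ : 0 < (M : ℝ) * Φ := by positivity
  set f := gV ν V G y M R r with hf
  have hf0 : ∀ x, 0 ≤ f x := by
    intro x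
    rw [hf]
    unfold gV
    refine mul_nonneg (Finset.prod_nonneg fun p _ => ?_) (Finset.sum_nonneg fun n _ =>
      hSt.pin.G0 n)
    exact mul_nonneg (Nat.cast_nonneg _) (inv_nonneg.2 (hSt.pin.wts.nn _ _))
  set b := b2 P with hb
  have hb' : b = P ^ (-0.488 : ℝ) := rfl
  have hb0 : 0 ≤ b := by rw [hb']; positivity
  have hb200 : 200 * b ≤ 1 := by rw [hb']; exact hMB.b
  set B := Real.exp 4 * (R : ℝ) ^ (5 * b) * ((M * Φ) / R) with hBdef
  have hB : 0 < B := by positivity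
  set s := C0 * t2 P with hs
  have hs' : s = C0 * P ^ (-0.34 : ℝ) := rfl
  have ht0 : 0 ≤ t2 P := by unfold t2; positivity
  have hs0 : 0 ≤ s := by rw [hs]; exact mul_nonneg (by linarith) ht0
  have hs4 : s ≤ 1 / 4 := by
    rw [hs']
    have := hMB.s_le
    linarith
  obtain ⟨hτ0, hτ⟩ := Mom.tau2_inv hPone
  -- exponent
  have hm' : (20 : ℝ) ≤ m := by exact_mod_cast hm
  set θ : ℝ := 1 / (2 * (m : ℝ) - 1) with hθdef
  have hden : (0 : ℝ) < 2 * (m : ℝ) - 1 := by linarith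
  have hθ0 : 0 < θ := by positivity
  have hθ39 : θ ≤ 1 / 39 := by
    rw [hθdef]
    exact one_div_le_one_div_of_le (by norm_num) (by linarith)
  have hexp : (2 * m : ℝ) / (2 * m - 1) = 1 + θ := by
    rw [hθdef]
    field_simp
    ring
  set U : ℝ := 16 * P ^ (1.04 : ℝ) with hU
  have hU1 : 1 ≤ U := by
    have : (1 : ℝ) ≤ P ^ (1.04 : ℝ) := Real.one_le_rpow hPone (by norm_num)
    rw [hU]; linarith
  have hu := Mom.U_le hPone hθ0.le hθ39
  rw [← hU] at hu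
  have hu0 : 0 ≤ U ^ θ := by positivity
  have hcard : (V.card : ℝ) ≤ P ^ (0.995 : ℝ) := Mom.card_le hCB hV hVlog
  have hlR0 : 0 ≤ Real.log R := Real.log_nonneg (by exact_mod_cast hR)
  have hcond : s * U ^ θ * (1 + 2 * (2 * b)) ≤ tau2 P / 4 := by
    have h1 : 1 + 2 * (2 * b) ≤ 2 := by linarith
    have h2 : s * U ^ θ * (1 + 2 * (2 * b)) ≤ (C0 * P ^ (-0.34 : ℝ)) * (2 * P ^ (0.027 : ℝ)) * 2 := by
      rw [hs']
      have : 0 ≤ C0 * P ^ (-0.34 : ℝ) := by positivity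
      gcongr
    have h3 : (C0 * P ^ (-0.34 : ℝ)) * (2 * P ^ (0.027 : ℝ)) * 2 = 4 * C0 * P ^ (-0.313 : ℝ) := by
      have : P ^ (-0.34 : ℝ) * P ^ (0.027 : ℝ) = P ^ (-0.313 : ℝ) := by
        rw [← Real.rpow_add hPpos]; norm_num
      linear_combination (4 * C0) * this
    have h4 : P ^ (-0.05 : ℝ) ≤ 4 * tau2 P := by
      have h5 : P ^ (-0.05 : ℝ) * P ^ (0.05 : ℝ) = 1 := by
        rw [← Real.rpow_add hPpos]; norm_num
      have h6 : 1 ≤ 4 * P ^ (0.05 : ℝ) * tau2 P := by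
        rw [div_le_iff₀ hτ0] at hτ
        exact hτ
      have h7 : 0 ≤ P ^ (-0.05 : ℝ) := by positivity
      calc P ^ (-0.05 : ℝ) = P ^ (-0.05 : ℝ) * 1 := by ring
        _ ≤ P ^ (-0.05 : ℝ) * (4 * P ^ (0.05 : ℝ) * tau2 P) := by gcongr
        _ = 4 * tau2 P * (P ^ (-0.05 : ℝ) * P ^ (0.05 : ℝ)) := by ring
        _ = 4 * tau2 P := by rw [h5, mul_one]
    have h8 := hMB.cond
    linarith
  -- the weights
  have hπU : ∀ (i : ↥V) (x : Fin (i : ℕ)), piV ν V i x = 0 ∨ 1 ≤ U * piV ν V i x := by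
    intro i x
    have hiW := hV i.2
    have hp0 : (0 : ℝ) < ((i : ℕ) : ℝ) := by exact_mod_cast (hprime i i.2).pos
    rcases (hn1 (i : ℕ) hiW ((x : ℕ) : ℤ)).2 with h | h
    · left
      unfold piV
      rw [h, zero_div]
    · right
      unfold piV
      have h1 := W2_le hPpos.le hiW
      rw [← mul_div_assoc, le_div_iff₀ hp0, one_mul, hU]
      calc ((i : ℕ) : ℝ) ≤ P ^ (1.04 : ℝ) := h1
        _ = 16 * P ^ (1.04 : ℝ) * (1 / 16) := by ring
        _ ≤ _ := by gcongr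
  have hℓ : ∀ (i : ↥V), ∑ x : Fin (i : ℕ), piV ν V i x *
      (Real.exp (max 0 (Real.log (1 / ν (i : ℕ) ((x : ℕ) : ℤ)))) - 1) ≤ 2 * b := by
    intro i
    have h1 := hn5 (i : ℕ) (hV i.2)
    have h2 : ∑ x : Fin (i : ℕ), piV ν V i x *
      (Real.exp (max 0 (Real.log (1 / ν (i : ℕ) ((x : ℕ) : ℤ)))) - 1) =
      ∑ x ∈ range (i : ℕ), ν (i : ℕ) (x : ℤ) / ((i : ℕ) : ℝ) *
      (Real.exp (max 0 (Real.log (1 / ν (i : ℕ) (x : ℤ)))) - 1) :=
      Fin.sum_univ_eq_sum_range (fun x : ℕ => ν (i : ℕ) (x : ℤ) / ((i : ℕ) : ℝ) *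
        (Real.exp (max 0 (Real.log (1 / ν (i : ℕ) (x : ℤ)))) - 1)) (i : ℕ)
    rw [h2]
    exact h1
  -- local norms
  have hyp : ∀ (S : Finset ↥V) (x : ∀ i : ↥V, Fin (i : ℕ)), (∀ i ∈ S, piV ν V i (x i) ≠ 0) →
      ∑ T ∈ Sᶜ.powerset, wtR (fun _ => s) Sᶜ T *
        Ex (piV ν V) T (fun z => (rho (piV ν V) f (S ∪ T) z) ^ ((2 * m : ℝ) / (2 * m - 1))) x ≤
          ((17 : ℝ) ^ S.card * B) ^ ((2 * m : ℝ) / (2 * m - 1)) := by
    intro S x hx
    rw [hexp]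
    have hν16 : ∀ i ∈ S, (1 / 16 : ℝ) ≤ ν (i : ℕ) ((x i : ℕ) : ℤ) := by
      intro i hi
      rcases (hn1 (i : ℕ) (hV i.2) ((x i : ℕ) : ℤ)).2 with h | h
      · exfalso
        apply hx i hi
        unfold piV
        rw [h, zero_div]
      · exact h
    have hpr : (1 / 16 : ℝ) ^ S.card ≤ ∏ p ∈ S, ν (p : ℕ) ((x p : ℕ) : ℤ) := by
      rw [← Finset.prod_const]
      exact Finset.prod_le_prod (fun _ _ => by norm_num) hν16
    have hpr0 : 0 < ∏ p ∈ S, ν (p : ℕ) ((x p : ℕ) : ℤ) :=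
      lt_of_lt_of_le (by positivity) hpr
    set a : ℝ := (∏ p ∈ S, ν (p : ℕ) ((x p : ℕ) : ℤ)) * R / (M * Φ) with ha
    have ha0 : 0 < a := by positivity
    obtain ⟨_, hkl, hr0⟩ := hcellP V R M y r S x a hV hVlog hR hVR hRlog hMN hNM ha
    have hfa : ∀ z, 0 ≤ (fun z => a * f z) z := fun z => mul_nonneg ha0.le (hf0 z)
    set A0 : ℝ := 2 + 5 * b * Real.log R + 2 * b * (S.card : ℝ) with hA0
    have hA00 : 0 ≤ A0 := by positivity
    have hpsi := hPsi ↥V (fun p => Fin (p : ℕ)) (piV ν V) (fun z => a * f z) (fun _ => s)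
      (fun p z => max 0 (Real.log (1 / ν (p : ℕ) ((z : ℕ) : ℤ)))) θ (tau2 P) A0 (2 * b) (2 * b)
      U s S x hpi hfa hθ0 (by linarith) hτ0 hA00 (by positivity) (by positivity) hU1 hs0
      (fun _ => ⟨hs0, le_refl _⟩) hs4 (fun _ _ => le_max_left _ _) hℓ hπU ?_ hcond
    · have hsumc : ∑ _i : ↥V, s = (V.card : ℝ) * s := by
        rw [Finset.sum_const, Finset.card_univ, Fintype.card_coe, nsmul_eq_mul]
      rw [hsumc] at hpsi
      have hX := Mom.expo_le (c := (S.card : ℝ)) (by linarith) hMB hθ0.le hθ39 hs0 hs' hu0 hu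
        hτ0 hτ hb' hlR0 hRlog (Nat.cast_nonneg _) hcard (Nat.cast_nonneg _) hA0
      have hρ0 : 0 ≤ rho (piV ν V) (fun z => a * f z) S x := Mom.rho_nonneg hpi hfa S x
      have h1 := Mom.point_le (S := S.card) hθ0.le rfl hρ0 hr0 hA00 hX hA0 hpsi
      have h2 := Mom.psi_scaled hpi hf0 S x s θ a _ ha0 (Real.exp_pos _).le h1
      refine h2.trans ?_
      refine Real.rpow_le_rpow (by positivity) ?_ (by linarith)
      rw [ha]
      exact Mom.growth_le hb200 hMΦ hR0 rfl hpr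
    · intro T z hST hz
      refine (hkl T z hST hz).trans (le_of_eq ?_)
      have hcardT : (T.card : ℝ) = (S.card : ℝ) + ((T \ S).card : ℝ) := by
        rw [Finset.card_sdiff_of_subset hST, Nat.cast_sub (Finset.card_le_card hST)]
        ring
      rw [hcardT, hA0]
      ring
  have hfin := hloc ↥V (fun p => Fin (p : ℕ)) (piV ν V) f s (t2 P) B hpi hf0 hB ht0 le_rfl
    (by linarith) hyp
  have hL : ∑ T ∈ V.powerset, wtR (fun _ => t2 P) V T * moT ν G y M R r T (2 * m) =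
      ∑ T : Finset ↥V, wtR (fun _ => t2 P) univ T *
        Ev (piV ν V) (fun x => (rho (piV ν V) f T x) ^ (2 * m)) := by
    rw [← Mom.sum_powerset_sub V (fun T => wtR (fun _ => t2 P) V T * moT ν G y M R r T (2 * m))]
    refine Finset.sum_congr rfl fun T _ => ?_
    rw [Mom.wtR_map, ← hmo T (2 * m)]
  rw [hL]
  refine hfin.trans ?_
  rw [hBdef, mul_pow, mul_pow]
  refine mul_le_mul_of_nonneg_right ?_ (by positivity)
  have h1 : (Real.exp 4) ^ (2 * m) = Real.exp (8 * m) := by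
    rw [← Real.exp_nat_mul]
    congr 1
    push_cast
    ring
  have h2 : ((R : ℝ) ^ (5 * b)) ^ (2 * m) = (R : ℝ) ^ (10 * m * b) := by
    rw [← Real.rpow_natCast, ← Real.rpow_mul hR0.le]
    congr 1
    push_cast
    ring
  rw [h1, h2]
  refine mul_le_mul (le_max_left _ _) ?_ (by positivity) (le_max_of_le_left (Real.exp_pos _).le)
  refine Real.rpow_le_rpow_of_exponent_le (by exact_mod_cast hR) ?_
  exact mul_le_mul_of_nonneg_right (le_max_right _ _) hb0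

end Vale.Agent.P042.TT
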