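import Vale.Agent.P042.H333.Mom2
import Vale.Agent.P042.TT.CellF
import Vale.Agent.P042.TT.Psi
import Vale.Agent.P042.TT.Loc

set_option autoImplicit false

namespace Vale.Agent.P042.TT

/-- block MOM -/
theorem mom_holds : MOMStmt := mom_of psi_holds loc_holds cell_holds br_holds nu2_holds

end Vale.Agent.P042.TT
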