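import Vale.Agent.P042.TT.Spec

set_option autoImplicit false

/-!
Blocks VAVG (thinning identity) and BAD (atypical thinnings) of Theorem S2.
-/

namespace Vale.Agent.P042.TT

open Polynomial Finset Vale.Agent.P042.SS

section thin

variable {κ : Type*} [DecidableEq κ]

/-- probability that the random set contains `U` -/
theorem sum_wtR_subset (π : κ → ℝ) (S U : Finset κ) (hU : U ⊆ S) :
    ∑ V ∈ S.powerset.filter (fun V => U ⊆ V), wtR π S V = ∏ i ∈ U, π i := by
  have h1 : ∑ V ∈ S.powerset.filter (fun V => U ⊆ V), wtR π S V =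
      ∑ T ∈ (S \ U).powerset, wtR π S (U ∪ T) := by
    symm
    refine Finset.sum_nbij' (fun T => U ∪ T) (fun V => V \ U) ?_ ?_ ?_ ?_ ?_
    · intro T hT
      rw [Finset.mem_powerset] at hT
      rw [Finset.mem_filter, Finset.mem_powerset]
      exact ⟨Finset.union_subset hU (hT.trans Finset.sdiff_subset), Finset.subset_union_left⟩
    · intro V hV
      rw [Finset.mem_filter, Finset.mem_powerset] at hV
      rw [Finset.mem_powerset]
      exact Finset.sdiff_subset_sdiff hV.1 (Finset.Subset.refl _)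
    · intro T hT
      rw [Finset.mem_powerset] at hT
      ext x
      simp only [Finset.mem_sdiff, Finset.mem_union]
      constructor
      · rintro ⟨h | h, h2⟩
        · exact absurd h h2
        · exact h
      · intro h
        exact ⟨Or.inr h, (Finset.mem_sdiff.1 (hT h)).2⟩
    · intro V hV
      rw [Finset.mem_filter, Finset.mem_powerset] at hV
      exact Finset.union_sdiff_of_subset hV.2
    · intro T _
      rfl
  rw [h1]
  have h2 : ∀ T ∈ (S \ U).powerset, wtR π S (U ∪ T) =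
      (∏ i ∈ U, π i) * wtR π (S \ U) T := by
    intro T hT
    rw [Finset.mem_powerset] at hT
    have hd : Disjoint U T := by
      rw [Finset.disjoint_left]
      intro x hx hxT
      exact (Finset.mem_sdiff.1 (hT hxT)).2 hx
    unfold wtR
    rw [Finset.prod_union hd, sdiff_sdiff, mul_assoc]
    rfl
  rw [Finset.sum_congr rfl h2, ← Finset.mul_sum, sum_wtR, mul_one]

end thin

theorem factorization_prodset (U : Finset ℕ) (hU : ∀ p ∈ U, p.Prime) (r : ℕ) :
    (∏ p ∈ U, p).factorization r = if r ∈ U then 1 else 0 := by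
  rw [Nat.factorization_prod (fun p hp => (hU p hp).ne_zero), Finsupp.finsetSum_apply]
  by_cases hr : r ∈ U
  · rw [if_pos hr, Finset.sum_eq_single r]
    · exact (hU r hr).factorization_self
    · intro p hp hpr
      rw [(hU p hp).factorization, Finsupp.single_apply, if_neg hpr]
    · exact fun h => absurd hr h
  · rw [if_neg hr]
    refine Finset.sum_eq_zero fun p hp => ?_
    rw [(hU p hp).factorization, Finsupp.single_apply, if_neg]
    rintro rfl
    exact hr hp

/-- unique decomposition `n = q ∏ U` -/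
theorem sum_decomp (W : Finset ℕ) (hW : ∀ p ∈ W, p.Prime) (Q : ℕ) (X : ℕ → ℂ) :
    ∑ q ∈ (Icc 1 Q).filter (fun q => ∀ p ∈ W, q.factorization p ≠ 1),
      ∑ U ∈ ((W \ q.primeFactors).powerset).filter (fun U => q * ∏ p ∈ U, p ≤ Q),
        X (q * ∏ p ∈ U, p) = ∑ n ∈ Icc 1 Q, X n := by
  rw [Finset.sum_sigma']
  have hUn : ∀ n : ℕ, ∀ p ∈ W.filter (fun p => n.factorization p = 1), p.Prime :=
    fun n p hp => hW p (Finset.mem_filter.1 hp).1
  have hdvd : ∀ n : ℕ, (∏ p ∈ W.filter (fun p => n.factorization p = 1), p) ∣ n := by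
    intro n
    refine Finset.prod_primes_dvd n (fun p hp => (hUn n p hp).prime) ?_
    intro p hp
    have h1 := (Finset.mem_filter.1 hp).2
    exact Nat.dvd_of_factorization_pos (by omega)
  refine Finset.sum_nbij' (fun x : (_ : ℕ) × Finset ℕ => x.1 * ∏ p ∈ x.2, p)
    (fun n => ⟨n / ∏ p ∈ W.filter (fun p => n.factorization p = 1), p,
      W.filter (fun p => n.factorization p = 1)⟩) ?_ ?_ ?_ ?_ ?_
  · rintro ⟨q, U⟩ hx
    simp only [Finset.mem_sigma, Finset.mem_filter, Finset.mem_Icc, Finset.mem_powerset] at hx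
    obtain ⟨⟨⟨hq1, hqQ⟩, hq⟩, hU, hle⟩ := hx
    rw [Finset.mem_Icc]
    refine ⟨?_, hle⟩
    have h1 : 1 ≤ ∏ p ∈ U, p := Finset.one_le_prod' fun p hp =>
      (hW p (Finset.mem_sdiff.1 (hU hp)).1).one_le
    exact Nat.mul_pos hq1 h1
  · intro n hn
    rw [Finset.mem_Icc] at hn
    have hn0 : n ≠ 0 := by omega
    set U := W.filter (fun p => n.factorization p = 1) with hUdef
    have hU := hUn n
    rw [← hUdef] at hU
    have hd := hdvd n
    rw [← hUdef] at hd
    have hP0 : (∏ p ∈ U, p) ≠ 0 := Finset.prod_ne_zero_iff.2 fun p hp => (hU p hp).ne_zero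
    have hq : n / (∏ p ∈ U, p) * ∏ p ∈ U, p = n := Nat.div_mul_cancel hd
    have hq1 : 1 ≤ n / ∏ p ∈ U, p := by
      rcases Nat.eq_zero_or_pos (n / ∏ p ∈ U, p) with h | h
      · rw [h, zero_mul] at hq; exact absurd hq.symm hn0
      · exact h
    have hfac : ∀ r, (n / ∏ p ∈ U, p).factorization r = n.factorization r - if r ∈ U then 1 else 0 := by
      intro r
      rw [Nat.factorization_div hd, Finsupp.coe_tsub, Pi.sub_apply, factorization_prodset U hU]
    simp only [Finset.mem_sigma, Finset.mem_filter, Finset.mem_Icc, Finset.mem_powerset]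
    refine ⟨⟨⟨hq1, (Nat.div_le_self _ _).trans hn.2⟩, ?_⟩, ?_, ?_⟩
    · intro p hp
      rw [hfac]
      by_cases hpU : p ∈ U
      · have := (Finset.mem_filter.1 (hUdef ▸ hpU)).2
        rw [if_pos hpU, this]; omega
      · rw [if_neg hpU]
        intro h
        apply hpU
        rw [hUdef, Finset.mem_filter]
        exact ⟨hp, by omega⟩
    · intro p hp
      rw [Finset.mem_sdiff]
      have h1 := Finset.mem_filter.1 (hUdef ▸ hp)
      refine ⟨h1.1, ?_⟩
      intro h2
      have h3 := hfac p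
      rw [if_pos hp, h1.2] at h3
      rw [Nat.mem_primeFactors] at h2
      have h4 := h2.1.factorization_pos_of_dvd h2.2.2 h2.2.1
      omega
    · rw [hq]; exact hn.2
  · rintro ⟨q, U⟩ hx
    simp only [Finset.mem_sigma, Finset.mem_filter, Finset.mem_Icc, Finset.mem_powerset] at hx
    obtain ⟨⟨⟨hq1, hqQ⟩, hq⟩, hU, hle⟩ := hx
    have hUp : ∀ p ∈ U, p.Prime := fun p hp => hW p (Finset.mem_sdiff.1 (hU hp)).1
    have hP0 : (∏ p ∈ U, p) ≠ 0 := Finset.prod_ne_zero_iff.2 fun p hp => (hUp p hp).ne_zero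
    have hfac : ∀ r, (q * ∏ p ∈ U, p).factorization r = q.factorization r + if r ∈ U then 1 else 0 := by
      intro r
      rw [Nat.factorization_mul (by omega) hP0, Finsupp.coe_add, Pi.add_apply,
        factorization_prodset U hUp]
    have hset : W.filter (fun p => (q * ∏ p ∈ U, p).factorization p = 1) = U := by
      ext r
      rw [Finset.mem_filter, hfac]
      constructor
      · rintro ⟨h1, h2⟩
        by_contra hr
        rw [if_neg hr] at h2
        exact hq r h1 h2
      · intro hr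
        have h1 := Finset.mem_sdiff.1 (hU hr)
        refine ⟨h1.1, ?_⟩
        rw [if_pos hr]
        have : q.factorization r = 0 := by
          by_contra h
          exact h1.2 (by rw [← Nat.support_factorization, Finsupp.mem_support_iff]; exact h)
        rw [this]
    simp only [hset]
    rw [Nat.mul_div_cancel _ (Nat.pos_of_ne_zero hP0)]
  · intro n hn
    exact Nat.div_mul_cancel (hdvd n)
  · rintro ⟨q, U⟩ _
    rfl

theorem prime_of_mem_W2 {P : ℝ} {p : ℕ} (hp : p ∈ W2 P) : p.Prime := by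
  unfold W2 Wp at hp
  exact (Finset.mem_filter.1 hp).2

theorem sum_wtR_subset_disj {κ : Type*} [DecidableEq κ] (π : κ → ℝ) (S U Y : Finset κ)
    (hY : Y ⊆ S) (hU : U ⊆ S \ Y) :
    ∑ V ∈ S.powerset.filter (fun V => U ⊆ V ∧ Disjoint V Y), wtR π S V =
      (∏ i ∈ U, π i) * ∏ i ∈ Y, (1 - π i) := by
  have h1 : S.powerset.filter (fun V => U ⊆ V ∧ Disjoint V Y) =
      (S \ Y).powerset.filter (fun V => U ⊆ V) := by
    ext V
    simp only [Finset.mem_filter, Finset.mem_powerset]
    constructor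
    · rintro ⟨h1, h2, h3⟩
      refine ⟨fun x hx => Finset.mem_sdiff.2 ⟨h1 hx, fun hxY => ?_⟩, h2⟩
      exact Finset.disjoint_left.1 h3 hx hxY
    · rintro ⟨h1, h2⟩
      refine ⟨h1.trans Finset.sdiff_subset, h2, ?_⟩
      rw [Finset.disjoint_left]
      intro x hx hxY
      exact (Finset.mem_sdiff.1 (h1 hx)).2 hxY
  have h2 : ∀ V ∈ (S \ Y).powerset.filter (fun V => U ⊆ V), wtR π S V =
      wtR π (S \ Y) V * ∏ i ∈ Y, (1 - π i) := by
    intro V hV
    rw [Finset.mem_filter, Finset.mem_powerset] at hV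
    unfold wtR
    have h3 : S \ V = ((S \ Y) \ V) ∪ Y := by
      ext x
      simp only [Finset.mem_sdiff, Finset.mem_union]
      constructor
      · rintro ⟨h1, h2⟩
        by_cases hx : x ∈ Y
        · exact Or.inr hx
        · exact Or.inl ⟨⟨h1, hx⟩, h2⟩
      · rintro (⟨⟨h1, _⟩, h2⟩ | h)
        · exact ⟨h1, h2⟩
        · exact ⟨hY h, fun hx => (Finset.mem_sdiff.1 (hV.1 hx)).2 h⟩
    have h4 : Disjoint ((S \ Y) \ V) Y := by
      rw [Finset.disjoint_left]
      intro x hx hxY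
      exact (Finset.mem_sdiff.1 (Finset.mem_sdiff.1 hx).1).2 hxY
    rw [h3, Finset.prod_union h4, mul_assoc]
  rw [h1, Finset.sum_congr rfl h2, ← Finset.sum_mul, sum_wtR_subset _ _ _ hU]

theorem vavg_holds : VAVGStmt := by
  intro P μ Q X hμ hμ1
  have hW : ∀ p ∈ W2 P, p.Prime := fun p hp => prime_of_mem_W2 hp
  have hyc : ∀ q, yc P q = ((W2 P).filter (fun p => p ∣ q)).card := fun q => rfl
  have hEV : ∀ V, EV P V Q =
      ((Icc 1 Q).filter (fun q => ∀ p ∈ W2 P, q.factorization p ≠ 1)).filter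
        (fun q => ∀ p ∈ V, ¬ p ∣ q) := by
    intro V
    rw [Finset.filter_filter]
    rfl
  simp only [hEV, hyc]
  generalize W2 P = W at hW
  rw [← sum_decomp W hW Q X]
  -- expand
  have h1 : ∀ V ∈ W.powerset, ((wtR (fun _ : ℕ => μ) W V : ℝ) : ℂ) *
      ∑ q ∈ ((Icc 1 Q).filter (fun q => ∀ p ∈ W, q.factorization p ≠ 1)).filter
          (fun q => ∀ p ∈ V, ¬ p ∣ q),
        (((1 - μ)⁻¹ ^ (W.filter (fun p => p ∣ q)).card : ℝ) : ℂ) *
        ∑ U ∈ (V.powerset).filter (fun U => q * ∏ p ∈ U, p ≤ Q),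
          ((μ⁻¹ ^ U.card : ℝ) : ℂ) * X (q * ∏ p ∈ U, p) =
      ∑ q ∈ (Icc 1 Q).filter (fun q => ∀ p ∈ W, q.factorization p ≠ 1),
        ∑ U ∈ ((W \ q.primeFactors).powerset).filter (fun U => q * ∏ p ∈ U, p ≤ Q),
          if U ⊆ V ∧ Disjoint V (W.filter (fun p => p ∣ q)) then
            ((wtR (fun _ : ℕ => μ) W V : ℝ) : ℂ) *
              ((((1 - μ)⁻¹ ^ (W.filter (fun p => p ∣ q)).card : ℝ) : ℂ) *
                (((μ⁻¹ ^ U.card : ℝ) : ℂ) * X (q * ∏ p ∈ U, p))) else 0 := by
    intro V hV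
    rw [Finset.mem_powerset] at hV
    rw [Finset.mul_sum, Finset.sum_filter]
    refine Finset.sum_congr rfl fun q hq => ?_
    rw [Finset.mem_filter, Finset.mem_Icc] at hq
    have hiff : (∀ p ∈ V, ¬ p ∣ q) ↔ Disjoint V (W.filter (fun p => p ∣ q)) := by
      rw [Finset.disjoint_left]
      constructor
      · intro h p hp h2
        exact h p hp (Finset.mem_filter.1 h2).2
      · intro h p hp h2
        exact h hp (Finset.mem_filter.2 ⟨hV hp, h2⟩)
    by_cases hd : ∀ p ∈ V, ¬ p ∣ q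
    · rw [if_pos hd, Finset.mul_sum, Finset.mul_sum, ← Finset.sum_filter]
      refine Finset.sum_congr ?_ fun U _ => rfl
      ext U
      simp only [Finset.mem_filter, Finset.mem_powerset]
      constructor
      · rintro ⟨h1, h2⟩
        refine ⟨⟨fun x hx => Finset.mem_sdiff.2 ⟨hV (h1 hx), fun hx2 => ?_⟩, h2⟩, h1,
          hiff.1 hd⟩
        exact hd x (h1 hx) (Nat.dvd_of_mem_primeFactors hx2)
      · rintro ⟨⟨h1, h2⟩, h3, _⟩
        exact ⟨h3, h2⟩
    · rw [if_neg hd]
      symm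
      refine Finset.sum_eq_zero fun U _ => ?_
      rw [if_neg]
      rintro ⟨_, h2⟩
      exact hd (hiff.2 h2)
  rw [Finset.sum_congr rfl h1, Finset.sum_comm]
  refine Finset.sum_congr rfl fun q hq => ?_
  rw [Finset.mem_filter, Finset.mem_Icc] at hq
  rw [Finset.sum_comm]
  refine Finset.sum_congr rfl fun U hU => ?_
  rw [Finset.mem_filter, Finset.mem_powerset] at hU
  have hU2 : U ⊆ W \ (W.filter (fun p => p ∣ q)) := by
    intro x hx
    have h1 := Finset.mem_sdiff.1 (hU.1 hx)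
    refine Finset.mem_sdiff.2 ⟨h1.1, fun h2 => h1.2 ?_⟩
    exact Nat.mem_primeFactors.2 ⟨hW x h1.1, (Finset.mem_filter.1 h2).2, by omega⟩
  have h1μ : (0:ℝ) < 1 - μ := by linarith
  rw [← Finset.sum_filter, ← Finset.sum_mul, ← Complex.ofReal_sum,
    sum_wtR_subset_disj _ W U _ (Finset.filter_subset _ _) hU2, Finset.prod_const,
    Finset.prod_const]
  set c := (W.filter (fun p => p ∣ q)).card
  have e1 : ((μ ^ U.card * (1 - μ) ^ c : ℝ) : ℂ) * ((((1 - μ)⁻¹ ^ c : ℝ) : ℂ) *
      (((μ⁻¹ ^ U.card : ℝ) : ℂ) * X (q * ∏ p ∈ U, p))) =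
      (((μ * μ⁻¹) ^ U.card * ((1 - μ) * (1 - μ)⁻¹) ^ c : ℝ) : ℂ) * X (q * ∏ p ∈ U, p) := by
    rw [mul_pow, mul_pow]
    push_cast
    ring
  rw [e1, mul_inv_cancel₀ hμ.ne', mul_inv_cancel₀ h1μ.ne', one_pow, one_pow, mul_one,
    Complex.ofReal_one, one_mul]

end Vale.Agent.P042.TT
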